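import Vale.Agent.P199.Bdl.B1
import Mathlib.FieldTheory.SeparablyGenerated

/-!
# P199 over an arbitrary field, part 1

The Hilbert series part of the construction of `Vale/Agent/P199/Bdl/B1.lean`, over an arbitrary
coefficient field `𝕜` in place of `ℚ` (same proofs).
-/

set_option linter.all false

section

namespace P199K

open Cardinal P199H

variable {𝕜 : Type} [Field 𝕜]

/-- the transcendence degree of a quotient of a polynomial ring, as a natural number. -/
noncomputable def td {J : Type} (P : Ideal (MvPolynomial J 𝕜)) : ℕ :=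
  Cardinal.toNat (Algebra.trdeg 𝕜 (MvPolynomial J 𝕜 ⧸ P))

theorem trdeg_lt_aleph0 {J : Type} [Finite J] (P : Ideal (MvPolynomial J 𝕜)) :
    Algebra.trdeg 𝕜 (MvPolynomial J 𝕜 ⧸ P) < ℵ₀ := by
  exact trdeg_lt_aleph0_of_finiteType

theorem le_td {J : Type} [Finite J] (P : Ideal (MvPolynomial J 𝕜)) {ι : Type} [Fintype ι]
    (b : ι → MvPolynomial J 𝕜 ⧸ P) (hb : AlgebraicIndependent 𝕜 b) :
    Fintype.card ι ≤ td P := by
  have h := hb.cardinalMk_le_trdeg
  have h2 := Cardinal.toNat_le_toNat h (trdeg_lt_aleph0 P)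
  simpa [td] using h2

theorem exists_td {J : Type} [Finite J] (P : Ideal (MvPolynomial J 𝕜)) [hP : P.IsPrime] :
    ∃ b : Fin (td P) → MvPolynomial J 𝕜 ⧸ P, AlgebraicIndependent 𝕜 b ∧
      IsTranscendenceBasis 𝕜 b := by
  have : FaithfulSMul 𝕜 (MvPolynomial J 𝕜 ⧸ P) := inferInstance
  obtain ⟨ι, x, hx⟩ := exists_isTranscendenceBasis' (R := 𝕜) (A := MvPolynomial J 𝕜 ⧸ P)
  have h1 := hx.cardinalMk_eq_trdeg
  have h2 : Cardinal.mk ι < ℵ₀ := by rw [h1]; exact trdeg_lt_aleph0 P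
  have : Finite ι := Cardinal.mk_lt_aleph0_iff.mp h2
  have : Fintype ι := Fintype.ofFinite ι
  have h3 : Fintype.card ι = td P := by
    rw [td, ← h1]; simp
  let e : Fin (td P) ≃ ι := (Fintype.equivFinOfCardEq h3).symm
  have hx' : IsTranscendenceBasis 𝕜 (fun i => x (e i)) := hx.comp_equiv e
  exact ⟨fun i => x (e i), hx'.1, hx'⟩

theorem td_lt {J : Type} [Finite J] (P Q : Ideal (MvPolynomial J 𝕜)) [hP : P.IsPrime]
    [hQ : Q.IsPrime] (h : P < Q) : td Q + 1 ≤ td P := by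
  obtain ⟨hle, hne⟩ := lt_iff_le_and_ne.mp h
  obtain ⟨g, hgQ, hgP⟩ := SetLike.exists_of_lt h
  obtain ⟨b, hb, -⟩ := exists_td Q
  let π : (MvPolynomial J 𝕜 ⧸ P) →ₐ[𝕜] (MvPolynomial J 𝕜 ⧸ Q) := Ideal.Quotient.factorₐ 𝕜 hle
  have hsurj : Function.Surjective π := Ideal.Quotient.factor_surjective hle
  choose a ha using fun i => hsurj (b i)
  have hb' : AlgebraicIndependent 𝕜 (fun i => π (a i)) := by
    simpa [ha] using hb
  have h1 := algInd_option π a hb' (Ideal.Quotient.mk P g)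
    (by rwa [Ne, Ideal.Quotient.eq_zero_iff_mem])
    (by
      change Ideal.Quotient.mk Q g = 0
      rwa [Ideal.Quotient.eq_zero_iff_mem])
  have h2 := le_td P _ h1
  simpa using h2

/-- `td` in terms of any finite type algebra: an algebra homomorphism which is injective. -/
theorem td_eq_of_surjective {J J' : Type} [Finite J] [Finite J']
    (f : MvPolynomial J 𝕜 →ₐ[𝕜] MvPolynomial J' 𝕜) (hf : Function.Surjective f)
    (P' : Ideal (MvPolynomial J' 𝕜)) : td (P'.comap f) = td P' := by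
  unfold td
  congr 1
  let g : MvPolynomial J 𝕜 →ₐ[𝕜] (MvPolynomial J' 𝕜 ⧸ P') := (Ideal.Quotient.mkₐ 𝕜 P').comp f
  have hg : Function.Surjective g := (Ideal.Quotient.mkₐ_surjective 𝕜 P').comp hf
  have hk : RingHom.ker g = P'.comap f := by
    ext z
    rw [RingHom.mem_ker, Ideal.mem_comap]
    change Ideal.Quotient.mk P' (f z) = 0 ↔ _
    rw [Ideal.Quotient.eq_zero_iff_mem]
  have e1 := Ideal.quotientKerAlgEquivOfSurjective hg
  have e2 : (MvPolynomial J 𝕜 ⧸ RingHom.ker g) ≃ₐ[𝕜] (MvPolynomial J 𝕜 ⧸ P'.comap f) :=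
    Ideal.quotientEquivAlgOfEq 𝕜 hk
  exact (e2.symm.trans e1).trdeg_eq

theorem td_bot {J : Type} [Fintype J] :
    td (⊥ : Ideal (MvPolynomial J 𝕜)) = Fintype.card J := by
  unfold td
  rw [(AlgEquiv.quotientBot 𝕜 (MvPolynomial J 𝕜)).trdeg_eq, MvPolynomial.trdeg_of_isDomain]
  simp

theorem td_le_add {J1 J2 : Type} [Finite J1] [Finite J2] (P1 : Ideal (MvPolynomial J1 𝕜))
    (P2 : Ideal (MvPolynomial J2 𝕜)) (Q : Ideal (MvPolynomial (J1 ⊕ J2) 𝕜)) [hQ : Q.IsPrime]
    (h1 : P1.map (MvPolynomial.rename (R := 𝕜) (Sum.inl : J1 → J1 ⊕ J2)) ≤ Q)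
    (h2 : P2.map (MvPolynomial.rename (R := 𝕜) (Sum.inr : J2 → J1 ⊕ J2)) ≤ Q) :
    td Q ≤ td P1 + td P2 := by
  let f1 : (MvPolynomial J1 𝕜 ⧸ P1) →ₐ[𝕜] (MvPolynomial (J1 ⊕ J2) 𝕜 ⧸ Q) :=
    Ideal.Quotient.liftₐ P1 ((Ideal.Quotient.mkₐ 𝕜 Q).comp (MvPolynomial.rename Sum.inl)) (by
      intro a ha
      change Ideal.Quotient.mk Q _ = 0
      rw [Ideal.Quotient.eq_zero_iff_mem]
      exact h1 (Ideal.mem_map_of_mem _ ha))
  let f2 : (MvPolynomial J2 𝕜 ⧸ P2) →ₐ[𝕜] (MvPolynomial (J1 ⊕ J2) 𝕜 ⧸ Q) :=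
    Ideal.Quotient.liftₐ P2 ((Ideal.Quotient.mkₐ 𝕜 Q).comp (MvPolynomial.rename Sum.inr)) (by
      intro a ha
      change Ideal.Quotient.mk Q _ = 0
      rw [Ideal.Quotient.eq_zero_iff_mem]
      exact h2 (Ideal.mem_map_of_mem _ ha))
  have hgen : Algebra.adjoin 𝕜 (Set.range f1 ∪ Set.range f2) = ⊤ := by
    rw [eq_top_iff]
    rintro z -
    obtain ⟨p, rfl⟩ := Ideal.Quotient.mk_surjective z
    induction p using MvPolynomial.induction_on with
    | C a => exact Subalgebra.algebraMap_mem _ a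
    | add p q hp hq => rw [map_add]; exact add_mem hp hq
    | mul_X p j hp =>
      rw [map_mul]
      refine mul_mem hp (Algebra.subset_adjoin ?_)
      rcases j with j | j
      · left
        refine ⟨Ideal.Quotient.mk P1 (MvPolynomial.X j), ?_⟩
        change Ideal.Quotient.mk Q (MvPolynomial.rename Sum.inl (MvPolynomial.X j)) = _
        rw [MvPolynomial.rename_X]
      · right
        refine ⟨Ideal.Quotient.mk P2 (MvPolynomial.X j), ?_⟩
        change Ideal.Quotient.mk Q (MvPolynomial.rename Sum.inr (MvPolynomial.X j)) = _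
        rw [MvPolynomial.rename_X]
  have h3 := trdeg_le_add f1 f2 hgen
  have h4 : Algebra.trdeg 𝕜 (MvPolynomial J1 𝕜 ⧸ P1) + Algebra.trdeg 𝕜 (MvPolynomial J2 𝕜 ⧸ P2)
      < ℵ₀ := Cardinal.add_lt_aleph0 (trdeg_lt_aleph0 P1) (trdeg_lt_aleph0 P2)
  have h5 := Cardinal.toNat_le_toNat h3 h4
  rwa [Cardinal.toNat_add (trdeg_lt_aleph0 P1) (trdeg_lt_aleph0 P2)] at h5

end P199K
end

section

namespace P199K

open MvPolynomial P199H

variable {𝕜 : Type} [Field 𝕜]

variable {J ι : Type} [Fintype J]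

theorem td_le_card (P : Ideal (MvPolynomial J 𝕜)) [hP : P.IsPrime] : td P ≤ Fintype.card J := by
  rw [← td_bot (𝕜 := 𝕜) (J := J)]
  by_cases h : P = ⊥
  · rw [h]
  · have h1 := td_lt ⊥ P (bot_lt_iff_ne_bot.mpr h)
    omega

theorem base_poly_phi [Finite ι] (w : J → Dg ι) (hw : ∀ j, w j ≠ 0)
    {P : Ideal (MvPolynomial J 𝕜)} (hH : HomI w P) (hP : P.IsPrime) :
    (∃ f χ, IsWeightedHomogeneous w f χ ∧ χ ≠ 0 ∧ f ∉ P) ∨
      Polynomial.X ^ (Fintype.card J - td P) ∣ phi (kp w hw P) := by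
  classical
  by_cases h : ∀ j, (X j : MvPolynomial J 𝕜) ∈ P
  · right
    rw [kp_max w hw hH hP.ne_top h, map_prod]
    have h1 : (Polynomial.X : Polynomial (MvPolynomial ι ℤ)) ^ (Fintype.card J) ∣
        ∏ j : J, phi (1 - monomial (w j) 1) := by
      rw [Fintype.card, ← Finset.prod_const]
      refine Finset.prod_dvd_prod_of_dvd _ _ fun j _ => ?_
      rw [Polynomial.X_dvd_iff]
      exact HSys.phi_one_sub_coeff_zero _
    exact (pow_dvd_pow _ (Nat.sub_le _ _)).trans h1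
  · left
    push Not at h
    obtain ⟨j, hj⟩ := h
    exact ⟨X j, w j, isWeightedHomogeneous_X 𝕜 w j, hw j, hj⟩

/-- The system of homogeneous ideals of the weighted polynomial ring. -/
noncomputable def polySys [Finite ι] (w : J → Dg ι) (hw : ∀ j, w j ≠ 0) :
    HSys (MvPolynomial J 𝕜) ι where
  Hom f χ := IsWeightedHomogeneous w f χ
  HI I := HomI w I
  sup_HI hI hf := pc_sup w hI hf
  colon_HI hI hf := pc_colon w hI hf
  prime_crit hI hne hnp := prime_crit_poly w hI hne hnp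
  K := kp w hw
  K_exact {I f χ} hI hf := kp_add w hw hf hI (I' := Submodule.colon I {f}) (fun p => by
    rw [Submodule.mem_colon_singleton, smul_eq_mul, mul_comm])
  K_top := kp_top w hw
  c P := Fintype.card J - td P
  c_lt {P Q} _ _ hP hQ h := by
    have h1 := td_lt P Q h
    have h2 := td_le_card P
    omega
  base hH hP := base_poly_phi w hw hH hP

variable [Finite ι] (w : J → Dg ι) (hw : ∀ j, w j ≠ 0)

@[simp] lemma polySys_Hom (f : MvPolynomial J 𝕜) (χ : ι →₀ ℕ) :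
    (polySys w hw).Hom f χ ↔ IsWeightedHomogeneous w f χ := Iff.rfl

@[simp] lemma polySys_HI (I : Ideal (MvPolynomial J 𝕜)) :
    (polySys w hw).HI I ↔ HomI w I := Iff.rfl

@[simp] lemma polySys_K (I : Ideal (MvPolynomial J 𝕜)) :
    (polySys w hw).K I = kp w hw I := rfl

@[simp] lemma polySys_c (P : Ideal (MvPolynomial J 𝕜)) :
    (polySys w hw).c P = Fintype.card J - td P := rfl

lemma polySys_LC (P : Ideal (MvPolynomial J 𝕜)) :
    (polySys w hw).LC P = (phi (kp w hw P)).coeff (Fintype.card J - td P) := rfl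

lemma polySys_c_add_td (P : Ideal (MvPolynomial J 𝕜)) [P.IsPrime] :
    (polySys w hw).c P + td P = Fintype.card J := by
  have h := td_le_card P
  rw [polySys_c]
  omega

instance isPrime_bot_poly : (⊥ : Ideal (MvPolynomial J 𝕜)).IsPrime := Ideal.isPrime_bot

lemma homI_spanX (T : Set J) :
    HomI w (Ideal.span ((X : J → MvPolynomial J 𝕜) '' T)) := by
  classical
  intro p hp m
  rw [mem_ideal_span_X_image] at hp ⊢
  intro e he
  refine hp e ?_
  rw [mem_support_iff] at he ⊢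
  rw [coeff_weightedHomogeneousComponent] at he
  split_ifs at he with h
  · exact he
  · exact absurd rfl he

lemma X_notMem_spanX {T : Set J} {j : J} (hj : j ∉ T) :
    (X j : MvPolynomial J 𝕜) ∉ Ideal.span ((X : J → MvPolynomial J 𝕜) '' T) := by
  classical
  rw [mem_ideal_span_X_image]
  intro h
  obtain ⟨i, hi, h2⟩ := h (Finsupp.single j 1) (by
    rw [mem_support_iff, coeff_X, if_pos rfl]; exact one_ne_zero)
  rw [Finsupp.single_apply] at h2
  split_ifs at h2 with h3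
  · exact hj (h3 ▸ hi)
  · exact h2 rfl

lemma isPrime_spanX (T : Set J) :
    (Ideal.span ((X : J → MvPolynomial J 𝕜) '' T)).IsPrime := by
  classical
  let g : MvPolynomial J 𝕜 →ₐ[𝕜] MvPolynomial J 𝕜 := aeval fun j => if j ∈ T then 0 else X j
  have h1 : ∀ p : MvPolynomial J 𝕜,
      p - g p ∈ Ideal.span ((X : J → MvPolynomial J 𝕜) '' T) := by
    intro p
    induction p using MvPolynomial.induction_on with
    | C a =>
      have : g (C a) = C a := by simp [g]
      rw [this, sub_self]; exact Ideal.zero_mem _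
    | add p q hp hq =>
      have h2 := Ideal.add_mem _ hp hq
      have h3 : p + q - g (p + q) = p - g p + (q - g q) := by rw [map_add]; ring
      rw [h3]; exact h2
    | mul_X p j hp =>
      have h3 : p * X j - g (p * X j) = X j * (p - g p) + g p * (X j - g (X j)) := by
        rw [map_mul]; ring
      rw [h3]
      refine Ideal.add_mem _ (Ideal.mul_mem_left _ _ hp) (Ideal.mul_mem_left _ _ ?_)
      have h4 : g (X j) = if j ∈ T then 0 else X j := by simp [g]
      rw [h4]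
      split_ifs with hj
      · rw [sub_zero]; exact Ideal.subset_span ⟨j, hj, rfl⟩
      · rw [sub_self]; exact Ideal.zero_mem _
  have h2 : Ideal.span ((X : J → MvPolynomial J 𝕜) '' T) = RingHom.ker g := by
    apply le_antisymm
    · rw [Ideal.span_le]
      rintro _ ⟨j, hj, rfl⟩
      have h4 : g (X j) = if j ∈ T then 0 else X j := by simp [g]
      rw [if_pos hj] at h4
      exact h4
    · intro p hp
      have h3 := h1 p
      rw [RingHom.mem_ker] at hp
      rw [hp, sub_zero] at h3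
      exact h3
  rw [h2]
  exact RingHom.ker_isPrime _

lemma spanX_insert (T : Set J) (j : J) :
    Ideal.span ((X : J → MvPolynomial J 𝕜) '' (insert j T)) =
      Ideal.span ((X : J → MvPolynomial J 𝕜) '' T) ⊔ Ideal.span {X j} := by
  rw [Set.image_insert_eq, Ideal.span_insert, sup_comm]

/-- The `K`-polynomial of the zero ideal is one. -/
lemma kp_bot : kp w hw (⊥ : Ideal (MvPolynomial J 𝕜)) = 1 := by
  classical
  have key : ∀ T : Finset J, kp w hw (Ideal.span ((X : J → MvPolynomial J 𝕜) '' (T : Set J))) =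
      (∏ j ∈ T, (1 - monomial (w j) 1)) * kp w hw (⊥ : Ideal (MvPolynomial J 𝕜)) := by
    intro T
    induction T using Finset.induction_on with
    | empty => simp
    | insert a T ha ih =>
      rw [Finset.coe_insert, spanX_insert,
        kp_prime w hw (isWeightedHomogeneous_X 𝕜 w a) (homI_spanX w _) (isPrime_spanX _)
          (X_notMem_spanX (by simpa using ha)), ih, Finset.prod_insert ha]
      ring
  have h1 := key Finset.univ
  rw [kp_max w hw (homI_spanX w _) (isPrime_spanX _).ne_top (fun j =>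
    Ideal.subset_span ⟨j, by simp, rfl⟩)] at h1
  have h2 : (∏ j : J, (1 - monomial (w j) (1 : ℤ))) ≠ 0 := by
    rw [Finset.prod_ne_zero_iff]
    intro j _ h0
    have h3 := congrArg (coeff 0) h0
    rw [coeff_sub, coeff_zero_one, coeff_monomial, if_neg (hw j), coeff_zero] at h3
    norm_num at h3
  have h3 : (∏ j : J, (1 - monomial (w j) (1 : ℤ))) * 1 =
      (∏ j : J, (1 - monomial (w j) (1 : ℤ))) * kp w hw (⊥ : Ideal (MvPolynomial J 𝕜)) := by
    rw [mul_one]; exact h1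
  exact (mul_left_cancel₀ h2 h3).symm

lemma polySys_LC_bot : (polySys w hw).LC (⊥ : Ideal (MvPolynomial J 𝕜)) = 1 := by
  rw [polySys_LC, kp_bot, td_bot, Nat.sub_self, map_one, Polynomial.coeff_one_zero]

lemma polySys_c_bot : (polySys w hw).c (⊥ : Ideal (MvPolynomial J 𝕜)) = 0 := by
  rw [polySys_c, td_bot, Nat.sub_self]


end P199K
end

section

namespace P199K

open MvPolynomial P199H

variable {𝕜 : Type} [Field 𝕜]

/-- **L5**: if `P` is a homogeneous prime with odd leading coefficient then `Tw K (S / P)` has no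
zero divisors. -/
theorem L5 {K : ℕ} {J : Type} [Fintype J] (w : J → Dg (Ix K)) (hw : ∀ j, w j ≠ 0)
    {js : Ix K → J} (hinj : Function.Injective js) (hjs : ∀ i, w (js i) = Finsupp.single i 2)
    {P : Ideal (MvPolynomial J 𝕜)} (hPp : P.IsPrime) (hP : HomI w P)
    (hgood : ¬ (2 : MvPolynomial (Ix K) ℤ) ∣ (polySys w hw).LC P) :
    NoZeroDivisors (Tw K (MvPolynomial J 𝕜 ⧸ P) (fun i => Ideal.Quotient.mk P (X (js i)))) :=
  HSys.noZeroDivisors (polySys w hw) hw (fun _ => Iff.rfl) (fun _ _ => rfl) hinj hjs hPp hP hgood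

/-- **Elimination**: transcendence degrees. -/
theorem td_elim {J1 J2 : Type} (Q : Ideal (MvPolynomial (J1 ⊕ J2) 𝕜))
    (ψ : J2 → MvPolynomial J1 𝕜)
    (hψ : ∀ j, MvPolynomial.X (Sum.inr j) - MvPolynomial.rename Sum.inl (ψ j) ∈ Q) :
    td Q = td (Q.comap (MvPolynomial.rename (Sum.inl : J1 → J1 ⊕ J2))) := by
  obtain ⟨e, -⟩ := exists_elim_equiv Q ψ hψ
  rw [td, td, e.trdeg_eq]

variable {J1 J2 ι : Type} [Fintype J1] [Fintype J2] [Finite ι]

theorem lemmaD (w1 : J1 → Dg ι) (hw1 : ∀ j, w1 j ≠ 0) (w2 : J2 → Dg ι) (hw2 : ∀ j, w2 j ≠ 0)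
    (P : Ideal (MvPolynomial J1 𝕜)) (hP : P.IsPrime) (hPH : HomI w1 P)
    (hPL : ¬ (2 : MvPolynomial ι ℤ) ∣ (polySys w1 hw1).LC P)
    (Ps : Ideal (MvPolynomial J2 𝕜)) (hPs : Ps.IsPrime) (hPsH : HomI w2 Ps)
    (hPsL : ¬ (2 : MvPolynomial ι ℤ) ∣ (polySys w2 hw2).LC Ps)
    (ψ : J2 → MvPolynomial J1 𝕜) (hψ : ∀ j, IsWeightedHomogeneous w1 (ψ j) (w2 j)) :
    ∃ P' : Ideal (MvPolynomial J1 𝕜), P'.IsPrime ∧ HomI w1 P' ∧
      ¬ (2 : MvPolynomial ι ℤ) ∣ (polySys w1 hw1).LC P' ∧ P ≤ P' ∧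
      (∀ p ∈ Ps, aeval ψ p ∈ P') ∧
      (polySys w1 hw1).c P' ≤ (polySys w1 hw1).c P + (polySys w2 hw2).c Ps := by
  classical
  have hw := sumElim_ne_zero hw1 hw2
  set H := polySys (𝕜 := 𝕜) (Sum.elim w1 w2) hw with hH
  have hcard : Fintype.card (J1 ⊕ J2) = Fintype.card J1 + Fintype.card J2 := Fintype.card_sum
  -- Step 1: a good prime over the sum of the extended ideals
  have hI := homI_sumI hw1 hw2 hPH hPsH
  have hd1 := (polySys w1 hw1).X_pow_dvd_prime hP hPH
  have hd2 := (polySys w2 hw2).X_pow_dvd_prime hPs hPsH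
  obtain ⟨Q0, h01, h02, h03, h04, h05⟩ := H.L3
    (Ideal.span {(2 : MvPolynomial ι ℤ)}).toAddSubgroup (sumI P Ps) hI
    ((polySys w1 hw1).c P + (polySys w2 hw2).c Ps)
    (by
      intro Q hQ hQH hle
      have h1 := td_le_add P Ps Q (le_sup_left.trans hle) (le_sup_right.trans hle)
      have h2 := td_le_card P
      have h3 := td_le_card Ps
      simp only [hH, polySys_c]
      omega)
    (by
      rw [hH, polySys_K, kp_sumI hw1 hw2 hw hPH hPsH, map_mul]
      rw [polySys_K] at hd1 hd2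
      rw [coeff_mul_of_dvd hd1 hd2]
      intro h
      have h' : (phi (kp w1 hw1 P)).coeff ((polySys w1 hw1).c P) *
          (phi (kp w2 hw2 Ps)).coeff ((polySys w2 hw2).c Ps) ∈
          Ideal.span {(2 : MvPolynomial ι ℤ)} := h
      rw [Ideal.mem_span_singleton] at h'
      rcases two_prime.dvd_or_dvd h' with h1 | h1
      · exact hPL h1
      · exact hPsL h1)
  have h05' : ¬ (2 : MvPolynomial ι ℤ) ^ (0 + 1) ∣ H.LC Q0 := by
    rw [zero_add, pow_one]
    intro h
    exact h05 ((Ideal.mem_span_singleton).2 h)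
  -- Step 2: cuts
  choose u hu1 hu2 using fun j => exists_val (dotTh_ne_zero (hw2 j))
  obtain ⟨Q, h11, h12, h13, h14, h15, h16⟩ := H.cutFin
    (fun j => (X (Sum.inr j) - rename Sum.inl (ψ j) : MvPolynomial (J1 ⊕ J2) 𝕜)) w2
    (by
      intro j
      rw [hH, polySys_Hom]
      have h1 := isWeightedHomogeneous_X 𝕜 (Sum.elim w1 w2) (Sum.inr j)
      have h2 := rename_inl_hom w1 w2 (hψ j)
      exact (weightedHomogeneousSubmodule 𝕜 (Sum.elim w1 w2) (w2 j)).sub_mem h1 h2)
    u hu2 Finset.univ h01 h02 h05'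
  have hrel : ∀ j, (X (Sum.inr j) - rename Sum.inl (ψ j) : MvPolynomial (J1 ⊕ J2) 𝕜) ∈ Q :=
    fun j => h14 j (Finset.mem_univ j)
  rw [hH, polySys_HI] at h12
  -- Step 3: elimination
  set P' := Q.comap (rename (Sum.inl : J1 → J1 ⊕ J2) : MvPolynomial J1 𝕜 →ₐ[𝕜] _) with hP'
  have hP'p : P'.IsPrime := Ideal.IsPrime.comap _
  have hP'H : HomI w1 P' := homI_comap_inl hw1 hw h12
  have htd : td Q = td P' := td_elim Q ψ hrel
  have hkp := kp_elim hw1 hw h12 ψ hrel
  have h3 := td_le_card P'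
  have hc : H.c Q = (polySys w1 hw1).c P' + (Finset.univ : Finset J2).card := by
    rw [hH, polySys_c, polySys_c, hcard, htd, Finset.card_univ]
    omega
  have hLC : H.LC Q = (polySys w1 hw1).LC P' * ∏ j, dotTh (w2 j) := by
    have h4 := (polySys w1 hw1).X_pow_dvd_prime hP'p hP'H
    have h5 := phi_prod_coeff (Finset.univ : Finset J2) w2
    unfold HSys.LC
    rw [hc]
    rw [hH, polySys_K, hkp, map_mul, ← h5.1]
    rw [polySys_K] at h4
    exact coeff_mul_of_dvd h4 (Polynomial.X_pow_dvd_iff.2 h5.2)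
  refine ⟨P', hP'p, hP'H, ?_, ?_, ?_, ?_⟩
  · intro h2
    apply h16
    rw [hLC, zero_add, pow_succ']
    refine mul_dvd_mul h2 ?_
    rw [← Finset.prod_pow_eq_pow_sum]
    exact Finset.prod_dvd_prod_of_dvd _ _ fun j _ => hu1 j
  · intro p hp
    rw [hP', Ideal.mem_comap]
    exact h13 (h03 (Ideal.mem_sup_left (Ideal.mem_map_of_mem _ hp)))
  · intro p hp
    rw [hP', Ideal.mem_comap]
    have h4 : rename Sum.inr p ∈ Q :=
      h13 (h03 (Ideal.mem_sup_right (Ideal.mem_map_of_mem _ hp)))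
    have h5 := sub_mem_of_rel Q ψ hrel (rename Sum.inr p)
    rw [aeval_rename] at h5
    have h6 := Ideal.sub_mem _ h4 h5
    rw [sub_sub_cancel] at h6
    exact h6
  · rw [hc] at h15
    rw [← h04]
    omega


end P199K
end

section

namespace P199K

open P199H

variable {𝕜 : Type} [Field 𝕜] {K : ℕ}

/-- The variables `s_i`. -/
noncomputable def sz (i : Ix K) : MvPolynomial (Jz K) 𝕜 := MvPolynomial.X (Sum.inr i)

open Classical in
/-- The generic element `z = ∑_{g ≠ 0} z_g X^g`. -/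
noncomputable def zgen : Tw K (MvPolynomial (Jz K) 𝕜) sz :=
  fun g => if h : g = 0 then 0 else MvPolynomial.X (Sum.inl ⟨g, h⟩)

theorem zgen_zero : (zgen : Tw K (MvPolynomial (Jz K) 𝕜) sz) 0 = 0 := by
  simp [zgen]

theorem zgen_apply {g : Gam K} (h : g ≠ 0) :
    (zgen : Tw K (MvPolynomial (Jz K) 𝕜) sz) g = MvPolynomial.X (Sum.inl ⟨g, h⟩) := by
  simp [zgen, h]

/-- The variables `s_i`. -/
noncomputable def s0 (i : Ix K) : MvPolynomial (J0 K) 𝕜 := MvPolynomial.X (Sum.inr i)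

/-- The generic element `x`. -/
noncomputable def xgen : Tw K (MvPolynomial (J0 K) 𝕜) s0 :=
  fun g => MvPolynomial.X (Sum.inl (Sum.inl g))

/-- The generic element `y`. -/
noncomputable def ygen : Tw K (MvPolynomial (J0 K) 𝕜) s0 :=
  fun g => MvPolynomial.X (Sum.inl (Sum.inr g))

/-- The product of all `s_i`. -/
noncomputable def sigma0 : MvPolynomial (J0 K) 𝕜 := ∏ i : Ix K, s0 i

end P199K
end
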