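import Vale.Agent.P199.H128.K1

/-!
# P199 over an arbitrary field, part 2

Trace polynomials with coefficients in a field `𝕜`, their homogenisation, and the induction of L8.
-/

set_option linter.all false

namespace P199K

/-- Formal trace polynomials in two noncommuting variables `x`, `y` with coefficients in `𝕜`. -/
inductive TExp (𝕜 : Type) : Type
  | x : TExp 𝕜
  | y : TExp 𝕜
  | const (q : 𝕜) : TExp 𝕜
  | add (a b : TExp 𝕜) : TExp 𝕜
  | mul (a b : TExp 𝕜) : TExp 𝕜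
  | tr (a : TExp 𝕜) : TExp 𝕜
  deriving Countable

namespace TExp

variable {𝕜 : Type} [Field 𝕜]

instance : Nonempty (TExp 𝕜) := ⟨TExp.x⟩

/-- Evaluation of a trace polynomial in a ring `D` with a trace map `t : D → D`. -/
def eval {D : Type*} [Ring D] (c : 𝕜 →+* D) (t : D → D) (u v : D) : TExp 𝕜 → D
  | .x => u
  | .y => v
  | .const q => c q
  | .add a b => eval c t u v a + eval c t u v b
  | .mul a b => eval c t u v a * eval c t u v b
  | .tr a => t (eval c t u v a)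

section

variable {D : Type*} [Ring D] (c : 𝕜 →+* D) (t : D → D) (u v : D)

@[simp] lemma eval_x : eval c t u v .x = u := rfl
@[simp] lemma eval_y : eval c t u v .y = v := rfl
@[simp] lemma eval_const (q : 𝕜) : eval c t u v (.const q) = c q := rfl
@[simp] lemma eval_add (a b : TExp 𝕜) :
    eval c t u v (.add a b) = eval c t u v a + eval c t u v b := rfl
@[simp] lemma eval_mul (a b : TExp 𝕜) :
    eval c t u v (.mul a b) = eval c t u v a * eval c t u v b := rfl
@[simp] lemma eval_tr (a : TExp 𝕜) : eval c t u v (.tr a) = t (eval c t u v a) := rfl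

/-- The set of values of trace polynomials is closed under the ring operations, the trace and
multiplication by constants, and contains `u`, `v`. -/
lemma one_mem_range : (1 : D) ∈ Set.range (eval c t u v) := ⟨.const 1, by simp⟩

lemma range_add {a b : D} (ha : a ∈ Set.range (eval c t u v))
    (hb : b ∈ Set.range (eval c t u v)) :
    a + b ∈ Set.range (eval c t u v) := by
  obtain ⟨p, rfl⟩ := ha
  obtain ⟨q, rfl⟩ := hb
  exact ⟨.add p q, rfl⟩

lemma range_mul {a b : D} (ha : a ∈ Set.range (eval c t u v))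
    (hb : b ∈ Set.range (eval c t u v)) :
    a * b ∈ Set.range (eval c t u v) := by
  obtain ⟨p, rfl⟩ := ha
  obtain ⟨q, rfl⟩ := hb
  exact ⟨.mul p q, rfl⟩

lemma range_tr {a : D} (ha : a ∈ Set.range (eval c t u v)) :
    t a ∈ Set.range (eval c t u v) := by
  obtain ⟨p, rfl⟩ := ha
  exact ⟨.tr p, rfl⟩

lemma range_neg {a : D} (ha : a ∈ Set.range (eval c t u v)) :
    -a ∈ Set.range (eval c t u v) := by
  obtain ⟨p, rfl⟩ := ha
  exact ⟨.mul (.const (-1)) p, by simp⟩

/-- The subring of values. -/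
def values : Subring D where
  carrier := Set.range (eval c t u v)
  mul_mem' ha hb := range_mul c t u v ha hb
  one_mem' := one_mem_range c t u v
  add_mem' ha hb := range_add c t u v ha hb
  zero_mem' := ⟨.const 0, by simp⟩
  neg_mem' ha := range_neg c t u v ha

lemma x_mem_values : u ∈ values c t u v := ⟨.x, rfl⟩
lemma y_mem_values : v ∈ values c t u v := ⟨.y, rfl⟩
lemma const_mem_values (q : 𝕜) : c q ∈ values c t u v := ⟨.const q, rfl⟩
lemma tr_mem_values {a : D} (ha : a ∈ values c t u v) : t a ∈ values c t u v :=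
  range_tr c t u v ha

/-- Evaluation is natural for ring homomorphisms compatible with the traces. -/
lemma map_eval {D' : Type*} [Ring D'] (t' : D' → D') (f : D →+* D')
    (hf : ∀ a, f (t a) = t' (f a)) (p : TExp 𝕜) :
    f (eval c t u v p) = eval (f.comp c) t' (f u) (f v) p := by
  induction p with
  | x => rfl
  | y => rfl
  | const q => simp
  | add a b iha ihb => simp [iha, ihb]
  | mul a b iha ihb => simp [iha, ihb]
  | tr a iha => simp [hf, iha]

end

end TExp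

/-- exponents -/
def ex {𝕜 : Type} : TExp 𝕜 → ℕ
  | .x => 1
  | .y => 1
  | .const _ => 0
  | .add a b => ex a + ex b
  | .mul a b => ex a + ex b
  | .tr a => ex a

end P199K

section

namespace P199K

open P199H

variable {𝕜 : Type} [Field 𝕜]

section

variable {K : ℕ} {R : Type*} [CommRing R] {s : Ix K → R} (c : 𝕜 →+* R)

/-- the homogenised trace expression -/
noncomputable def hz (σ : R) (u v : Tw K R s) : TExp 𝕜 → Tw K R s
  | .x => u
  | .y => v
  | .const q => algebraMap R _ (c q)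
  | .add a b => σ ^ ex b • hz σ u v a + σ ^ ex a • hz σ u v b
  | .mul a b => hz σ u v a * hz σ u v b
  | .tr a => algebraMap R _ (Tw.tau (hz σ u v a))

theorem hz_hom (H : HomSys s) {δ : Ix K →₀ ℕ} (hq : ∀ q : 𝕜, H.Hm 0 (c q))
    {σ : R} (hσ : H.Hm δ σ) {u v : Tw K R s} (hu : H.TwH δ u) (hv : H.TwH δ v) (e : TExp 𝕜) :
    H.TwH (ex e • δ) (hz c σ u v e) := by
  have hpow : ∀ n : ℕ, H.Hm (n • δ) (σ ^ n) := by
    intro n
    induction n with
    | zero => rw [pow_zero, zero_smul]; exact H.one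
    | succ n ih => rw [pow_succ, succ_nsmul]; exact H.mul ih hσ
  induction e with
  | x => simpa [hz, ex] using hu
  | y => simpa [hz, ex] using hv
  | const q =>
    have := HomSys.TwH.algebraMap (H := H) (hq q)
    simpa [hz, ex] using this
  | add a b iha ihb =>
    have h1 := HomSys.TwH.smul (hpow (ex b)) iha
    have h2 := HomSys.TwH.smul (hpow (ex a)) ihb
    rw [← add_smul] at h1 h2
    rw [add_comm (ex b) (ex a)] at h1
    exact h1.add h2
  | mul a b iha ihb =>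
    have h1 := iha.mul ihb
    rw [← add_smul] at h1
    exact h1
  | tr a iha =>
    exact HomSys.TwH.algebraMap iha.tau

theorem map_hz {R' : Type*} [CommRing R'] {s' : Ix K → R'} (φ : R →+* R')
    (hs : ∀ i, φ (s i) = s' i) (σ : R) (u v : Tw K R s) (e : TExp 𝕜) :
    Tw.map φ hs (hz c σ u v e) = hz (φ.comp c) (φ σ) (Tw.map φ hs u) (Tw.map φ hs v) e := by
  induction e with
  | x => rfl
  | y => rfl
  | const q =>
    simp only [hz]
    rw [Tw.map_algebraMap]
    rfl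
  | add a b iha ihb =>
    simp only [hz]
    rw [map_add, Tw.map_smul, Tw.map_smul, iha, ihb, map_pow, map_pow]
  | mul a b iha ihb =>
    simp only [hz]
    rw [map_mul, iha, ihb]
  | tr a iha =>
    simp only [hz]
    rw [Tw.map_algebraMap, ← Tw.tau_map φ hs, iha]

theorem hz_eval (σ : R) (u v : Tw K R s) (e : TExp 𝕜) :
    hz c σ (σ • u) (σ • v) e =
      σ ^ ex e • TExp.eval ((algebraMap R (Tw K R s)).comp c)
        (fun w => algebraMap R (Tw K R s) (Tw.tau w)) u v e := by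
  induction e with
  | x => simp [hz, ex]
  | y => simp [hz, ex]
  | const q =>
    simp only [hz, ex, TExp.eval, pow_zero, one_smul]
    rfl
  | add a b iha ihb =>
    simp only [hz, ex, TExp.eval]
    rw [iha, ihb, smul_smul, smul_smul, smul_add, ← pow_add, ← pow_add, add_comm (ex b)]
  | mul a b iha ihb =>
    simp only [hz, ex, TExp.eval]
    rw [iha, ihb, smul_mul_assoc, mul_smul_comm, smul_smul, ← pow_add]
  | tr a iha =>
    simp only [hz, ex, TExp.eval]
    rw [iha, map_smul, smul_eq_mul, map_mul, Algebra.smul_def]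

/-- a trace expression evaluated at `0, 0` is a scalar -/
theorem eval_zero_zero (e : TExp 𝕜) :
    ∃ a : R, TExp.eval ((algebraMap R (Tw K R s)).comp c)
      (fun w => algebraMap R (Tw K R s) (Tw.tau w)) 0 0 e = algebraMap R (Tw K R s) a := by
  induction e with
  | x => exact ⟨0, by simp [TExp.eval]⟩
  | y => exact ⟨0, by simp [TExp.eval]⟩
  | const q => exact ⟨c q, rfl⟩
  | add a b iha ihb =>
    obtain ⟨d, hd⟩ := iha
    obtain ⟨d', hd'⟩ := ihb
    exact ⟨d + d', by simp only [TExp.eval]; rw [hd, hd', map_add]⟩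
  | mul a b iha ihb =>
    obtain ⟨d, hd⟩ := iha
    obtain ⟨d', hd'⟩ := ihb
    exact ⟨d * d', by simp only [TExp.eval]; rw [hd, hd', map_mul]⟩
  | tr a iha =>
    exact ⟨_, rfl⟩

end

section S0

variable {K : ℕ}

/-- the homogeneity system of the base ring -/
noncomputable def H0 (𝕜 : Type) [Field 𝕜] (K : ℕ) :
    HomSys (K := K) (s0 : Ix K → MvPolynomial (J0 K) 𝕜) :=
  polyHomSys w0 Sum.inr (fun _ => rfl)

theorem H0_Hm (d : Ix K →₀ ℕ) (p : MvPolynomial (J0 K) 𝕜) :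
    (H0 𝕜 K).Hm d p ↔ MvPolynomial.IsWeightedHomogeneous w0 p d := Iff.rfl

theorem sigma0_hom : (H0 𝕜 K).Hm D0 sigma0 := by
  rw [D0_eq_sum]
  exact (H0 𝕜 K).prod _ _ _ fun i _ => (H0 𝕜 K).s_hom i


theorem xgen_hom : (H0 𝕜 K).TwH D0 xgen := by
  intro g
  right
  refine ⟨D0 - gval g, ?_, ?_⟩
  · have := gval_le_smul_D0 g (le_refl 1)
    rw [one_smul] at this
    exact tsub_add_cancel_of_le this
  · rw [H0_Hm]
    exact MvPolynomial.isWeightedHomogeneous_X 𝕜 w0 (Sum.inl (Sum.inl g))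

theorem ygen_hom : (H0 𝕜 K).TwH D0 ygen := by
  intro g
  right
  refine ⟨D0 - gval g, ?_, ?_⟩
  · have := gval_le_smul_D0 g (le_refl 1)
    rw [one_smul] at this
    exact tsub_add_cancel_of_le this
  · rw [H0_Hm]
    exact MvPolynomial.isWeightedHomogeneous_X 𝕜 w0 (Sum.inl (Sum.inr g))

/-- the homogenised trace expression, with exponent at least one -/
noncomputable def Fe (K : ℕ) (e : TExp 𝕜) : Tw K (MvPolynomial (J0 K) 𝕜) s0 :=
  (sigma0 : MvPolynomial (J0 K) 𝕜) • hz MvPolynomial.C sigma0 xgen ygen e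

theorem Fe_hom (e : TExp 𝕜) : (H0 𝕜 K).TwH ((ex e + 1) • D0) (Fe K e) := by
  have h := hz_hom MvPolynomial.C (H0 𝕜 K) (δ := D0)
    (fun q => by
      rw [H0_Hm]
      exact MvPolynomial.isWeightedHomogeneous_C w0 q)
    sigma0_hom xgen_hom ygen_hom e
  have := HomSys.TwH.smul sigma0_hom h
  rwa [← succ_nsmul'] at this

theorem Fe_comp (e : TExp 𝕜) (g : Gam K) :
    MvPolynomial.IsWeightedHomogeneous w0 (Fe K e g) ((ex e + 1) • D0 - gval g) := by
  rcases Fe_hom e g with h | ⟨d, hd, h⟩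
  · rw [h]
    exact MvPolynomial.isWeightedHomogeneous_zero 𝕜 w0 _
  · rw [H0_Hm] at h
    rw [← hd, add_tsub_cancel_right]
    exact h

/-- the substitution `z_g ↦ (Fe e)_g`, `s_i ↦ s_i` -/
noncomputable def psi (e : TExp 𝕜) : Jz K → MvPolynomial (J0 K) 𝕜 :=
  Sum.elim (fun g => Fe K e g.1) s0

theorem psi_hom (e : TExp 𝕜) (j : Jz K) :
    MvPolynomial.IsWeightedHomogeneous w0 (psi e j) (wz (ex e + 1) j) := by
  rcases j with g | i
  · exact Fe_comp e g.1
  · exact MvPolynomial.isWeightedHomogeneous_X 𝕜 w0 (Sum.inr i)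

theorem aeval_psi_sz (e : TExp 𝕜) (i : Ix K) :
    (MvPolynomial.aeval (psi e) : MvPolynomial (Jz K) 𝕜 →ₐ[𝕜] MvPolynomial (J0 K) 𝕜).toRingHom
      (sz i) = s0 i := by
  simp [sz, psi]

theorem map_zgen (e : TExp 𝕜) :
    Tw.map (MvPolynomial.aeval (psi e) :
      MvPolynomial (Jz K) 𝕜 →ₐ[𝕜] MvPolynomial (J0 K) 𝕜).toRingHom (aeval_psi_sz e) zgen =
      Fe K e - algebraMap (MvPolynomial (J0 K) 𝕜) _ (Tw.tau (Fe K e)) := by
  ext g
  rw [Tw.map_apply, Tw.sub_apply, Tw.algebraMap_apply]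
  by_cases hg : g = 0
  · subst hg
    rw [zgen_zero, map_zero, if_pos rfl, Tw.tau_apply, sub_self]
  · rw [zgen_apply hg, if_neg hg, sub_zero]
    simp [psi]

/-- evaluation of `Fe` in a field -/
theorem map_Fe (e : TExp 𝕜) {L : Type} [Field L]
    (φ : MvPolynomial (J0 K) 𝕜 →+* L) (hσ : φ sigma0 ≠ 0) :
    Tw.map φ (fun _ => rfl) (Fe K e) = φ sigma0 ^ (ex e + 1) •
      TExp.eval ((algebraMap L (Tw K L (fun i => φ (s0 i)))).comp (φ.comp MvPolynomial.C))
        (fun v => algebraMap L (Tw K L (fun i => φ (s0 i))) (Tw.tau v))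
      ((φ sigma0)⁻¹ • Tw.map φ (fun _ => rfl) xgen)
      ((φ sigma0)⁻¹ • Tw.map φ (fun _ => rfl) ygen) e := by
  have h1 := hz_eval (φ.comp MvPolynomial.C) (φ sigma0)
    ((φ sigma0)⁻¹ • Tw.map φ (fun _ => rfl) xgen : Tw K L (fun i => φ (s0 i)))
    ((φ sigma0)⁻¹ • Tw.map φ (fun _ => rfl) ygen) e
  rw [smul_inv_smul₀ hσ, smul_inv_smul₀ hσ] at h1
  rw [pow_succ', mul_smul, ← h1, Fe, Tw.map_smul, map_hz]

/-- If the minors of `1, z, …, z^d` are killed by `φ` after the substitution, then the value of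
the trace polynomial satisfies a relation of degree `≤ d`. -/
theorem polyRel_of_minors (e : TExp 𝕜) (d : ℕ) {L : Type} [Field L]
    (φ : MvPolynomial (J0 K) 𝕜 →+* L) (hd : 1 ≤ d)
    (h : ∀ f : Fin (d + 1) → Gam K,
      φ ((MvPolynomial.aeval (psi e) : MvPolynomial (Jz K) 𝕜 →ₐ[𝕜] MvPolynomial (J0 K) 𝕜)
        (Matrix.of fun a b : Fin (d + 1) => (zgen ^ (b : ℕ) : Tw K _ sz) (f a)).det) = 0) :
    PolyRel L d (TExp.eval
      ((algebraMap L (Tw K L (fun i => φ (s0 i)))).comp (φ.comp MvPolynomial.C))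
      (fun v => algebraMap L (Tw K L (fun i => φ (s0 i))) (Tw.tau v))
      ((φ sigma0)⁻¹ • Tw.map φ (fun _ => rfl) xgen)
      ((φ sigma0)⁻¹ • Tw.map φ (fun _ => rfl) ygen) e) := by
  by_cases hσ : φ sigma0 = 0
  · rw [hσ, inv_zero, zero_smul, zero_smul]
    obtain ⟨a, ha⟩ := eval_zero_zero (K := K) (s := fun i => φ (s0 i)) (φ.comp MvPolynomial.C) e
    rw [ha]
    refine ⟨Polynomial.X - Polynomial.C a, Polynomial.X_sub_C_ne_zero a, ?_, ?_⟩
    · rw [Polynomial.natDegree_X_sub_C]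
      exact hd
    · rw [map_sub, Polynomial.aeval_X, Polynomial.aeval_C, sub_self]
  · have h1 := map_Fe e φ hσ
    apply PolyRel.of_smul (pow_ne_zero (ex e + 1) hσ)
    rw [← h1]
    apply PolyRel.of_sub (φ (Tw.tau (Fe K e)))
    -- the shifted element is the image of `z`
    set ψ : MvPolynomial (Jz K) 𝕜 →+* MvPolynomial (J0 K) 𝕜 :=
      (MvPolynomial.aeval (psi e) : MvPolynomial (Jz K) 𝕜 →ₐ[𝕜] MvPolynomial (J0 K) 𝕜).toRingHom
      with hψ
    have h2 : Tw.map φ (fun _ => rfl) (Fe K e) - algebraMap L (Tw K L (fun i => φ (s0 i)))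
        (φ (Tw.tau (Fe K e))) = Tw.map (φ.comp ψ)
          (fun i => by rw [RingHom.comp_apply, hψ, aeval_psi_sz]) zgen := by
      have h3 := congrArg (Tw.map φ (s' := fun i => φ (s0 i)) (fun _ => rfl)) (map_zgen (K := K) e)
      rw [map_sub, Tw.map_algebraMap] at h3
      rw [← h3]
      rfl
    rw [h2]
    set z' : Tw K L (fun i => φ (s0 i)) := Tw.map (φ.comp ψ)
          (fun i => by rw [RingHom.comp_apply, hψ, aeval_psi_sz]) zgen with hz'
    obtain ⟨c, hc0, hc⟩ := dep_of_minors (L := L) (G := Gam K) (n := d + 1)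
      (fun b g => (z' ^ (b : ℕ)) g) (by
        intro f
        rw [← h f]
        change _ = (φ.comp ψ) _
        rw [RingHom.map_det]
        congr 1
        ext a b
        simp only [Matrix.of_apply, RingHom.mapMatrix_apply, Matrix.map_apply]
        rw [hz', ← map_pow]
        rfl)
    rw [polyRel_iff]
    refine ⟨c, hc0, ?_⟩
    ext g
    rw [Tw.sum_apply, Tw.zero_apply, ← hc g]
    rfl


end S0

end P199K
end

section

namespace P199K

open MvPolynomial P199H

variable {𝕜 : Type} [Field 𝕜] {K : ℕ}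

/-- The output of L6. -/
def L6Stmt (𝕜 : Type) [Field 𝕜] (K : ℕ) : Prop :=
  ∀ (a r : ℕ), 1 ≤ a → a ≤ K → ∀ hr : 1 ≤ r, ∃ Ps : Ideal (MvPolynomial (Jz K) 𝕜),
    Ps.IsPrime ∧ HomI (wz r) Ps ∧
    ¬ (2 : MvPolynomial (Ix K) ℤ) ∣ (polySys (wz r) (wz_ne_zero hr)).LC Ps ∧
    (polySys (wz r) (wz_ne_zero hr)).c Ps ≤ 2 ^ (2 * K - a) ∧
    ∀ f : Fin (2 ^ a + 1) → Gam K,
      (Matrix.of fun i j : Fin (2 ^ a + 1) => (zgen ^ (j : ℕ) : Tw K _ sz) (f i)).det ∈ Ps


variable {K : ℕ}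

theorem L8_induction (hK : 0 < K) (h6 : L6Stmt 𝕜 K) (Φ : ℕ → TExp 𝕜) (m : ℕ) (hm : m + 2 ≤ K) :
    ∃ P : Ideal (MvPolynomial (J0 K) 𝕜), P.IsPrime ∧ HomI w0 P ∧
      ¬ (2 : MvPolynomial (Ix K) ℤ) ∣ (polySys w0 (w0_ne_zero hK)).LC P ∧
      (polySys w0 (w0_ne_zero hK)).c P ≤ ∑ j ∈ Finset.range m, 2 ^ (2 * K - (j + 3)) ∧
      ∀ j < m, ∀ f : Fin (2 ^ (j + 3) + 1) → Gam K,
        (aeval (psi (Φ j)) : MvPolynomial (Jz K) 𝕜 →ₐ[𝕜] MvPolynomial (J0 K) 𝕜)
          (Matrix.of fun a b : Fin (2 ^ (j + 3) + 1) =>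
            (zgen ^ (b : ℕ) : Tw K _ sz) (f a)).det ∈ P := by
  induction m with
  | zero =>
    refine ⟨⊥, Ideal.isPrime_bot, homI_bot w0, ?_, ?_, ?_⟩
    · rw [polySys_LC_bot]
      exact fun h => two_prime.not_unit (isUnit_of_dvd_one h)
    · rw [polySys_c_bot]
      exact Nat.zero_le _
    · intro j hj
      exact absurd hj (Nat.not_lt_zero _)
  | succ m ih =>
    obtain ⟨P, h1, h2, h3, h4, h5⟩ := ih (by omega)
    obtain ⟨Ps, g1, g2, g3, g4, g5⟩ := h6 (m + 3) (ex (Φ m) + 1) (by omega) (by omega)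
      (Nat.le_add_left 1 _)
    obtain ⟨P', k1, k2, k3, k4, k5, k6⟩ := lemmaD w0 (w0_ne_zero hK) (wz (ex (Φ m) + 1))
      (wz_ne_zero (Nat.le_add_left 1 _)) P h1 h2 h3 Ps g1 g2 g3 (psi (Φ m)) (psi_hom (Φ m))
    refine ⟨P', k1, k2, k3, ?_, ?_⟩
    · rw [Finset.sum_range_succ]
      exact k6.trans (add_le_add h4 g4)
    · intro j hj f
      rcases Nat.lt_succ_iff_lt_or_eq.1 hj with hj | rfl
      · exact k4 (h5 j hj f)
      · exact k5 _ (g5 f)

/-- **L8** (from L6). -/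
theorem L8_of_L6 (h6 : ∀ K, L6Stmt 𝕜 K) (Φ : ℕ → TExp 𝕜) (n K : ℕ) (hK0 : 0 < K) (hK : n + 3 ≤ K) :
    ∃ P : Ideal (MvPolynomial (J0 K) 𝕜), P.IsPrime ∧ HomI w0 P ∧
      ¬ (2 : MvPolynomial (Ix K) ℤ) ∣ (polySys w0 (w0_ne_zero hK0)).LC P ∧
      4 * (polySys w0 (w0_ne_zero hK0)).c P ≤ 2 ^ (2 * K) ∧
      ∀ (L : Type) [Field L] (φ : MvPolynomial (J0 K) 𝕜 →+* L), (∀ p ∈ P, φ p = 0) →
        ∀ j ≤ n,
          PolyRel L (2 ^ (j + 3))
            (TExp.eval ((algebraMap L (Tw K L (fun i => φ (s0 i)))).comp (φ.comp C))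
              (fun v => algebraMap L (Tw K L (fun i => φ (s0 i))) (Tw.tau v))
              ((φ sigma0)⁻¹ • Tw.map φ (fun _ => rfl) xgen)
              ((φ sigma0)⁻¹ • Tw.map φ (fun _ => rfl) ygen) (Φ j)) := by
  obtain ⟨P, h1, h2, h3, h4, h5⟩ := L8_induction hK0 (h6 K) Φ (n + 1) (by omega)
  refine ⟨P, h1, h2, h3, ?_, ?_⟩
  · have h7 := sum_bound K (n + 1) (by omega)
    have h8 : 4 * 2 ^ (2 * K - 2) = 2 ^ (2 * K) := by
      have : 2 * K = (2 * K - 2) + 2 := by omega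
      conv_rhs => rw [this, pow_add]
      ring
    rw [← h8]
    exact Nat.mul_le_mul_left 4 (h4.trans ((Nat.le_add_right _ _).trans h7))
  · intro L _ φ hφ j hj
    exact polyRel_of_minors (Φ j) (2 ^ (j + 3)) φ Nat.one_le_two_pow
      (fun f => hφ _ (h5 j (by omega) f))


end P199K
end
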