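import Vale.Agent.P199.H128.K2

/-!
# P199 over an arbitrary field of characteristic different from two, part 3

The lemmas L6 and L8 of the construction.
-/

set_option linter.all false

section

namespace P199K

open MvPolynomial P199H

variable {𝕜 : Type} [Field 𝕜] {K : ℕ}

/-- the ideal generated by the `z_g`, `g ∉ Lam K a`, is good -/
theorem LC_nn (H : HSys (MvPolynomial (Jz K) 𝕜) (Ix K)) {a r : ℕ} (hr : 1 ≤ r)
    (hbot : H.HI ⊥) (hX : ∀ j, H.Hom (X j) (wz r j)) (hK : H.K ⊥ = 1) :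
    rho (IL K a) (H.LC (vI (sL K a))) ≠ 0 := by
  rw [H.LC_vI (wz r) (wz_ne_zero hr) hbot hX hK, map_prod, Finset.prod_ne_zero_iff]
  exact fun j hj => rho_wz hr j hj

/-- **the good prime `P*`** -/
theorem exists_Pstar_abs (H : HSys (MvPolynomial (Jz K) 𝕜) (Ix K)) {a r : ℕ} (haK : a ≤ K)
    (hr : 1 ≤ r) (hbot : H.HI ⊥) (hK : H.K ⊥ = 1) (hc : H.c ⊥ = 0)
    (hB1 : ∀ P : Ideal (MvPolynomial (Jz K) 𝕜), P.IsPrime → H.HI P →
      rho (IL K a) (H.LC P) ≠ 0 → P ≤ vI (sL K a))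
    (Q : Gam K → MvPolynomial (Jz K) 𝕜) (e : Ix K →₀ ℕ) (he : ∀ i, Even (e i) ∧ e i ≠ 0)
    (hQ : ∀ g, g ∉ Lam K a → H.Hom (Q g) (e - gval g)) :
    ∃ P : Ideal (MvPolynomial (Jz K) 𝕜), P.IsPrime ∧ H.HI P ∧
      H.c P + 2 ^ a ≤ 2 ^ (2 * K - a) ∧ rho (IL K a) (H.LC P) ≠ 0 ∧
      (∀ g, g ∈ LamP K a → g ∉ Lam K a → Q g ∈ P) ∧ P ≤ vI (sL K a) := by
  classical
  have hLC : H.LC ⊥ = 1 := by
    unfold HSys.LC
    rw [hK, hc]
    simp
  obtain ⟨P, h1, h2, h3, h4, h5, h6⟩ := H.rho_cuts (IL K a)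
    (Finset.univ.filter fun γ : Gam K => γ ∈ LamP K a ∧ γ ∉ Lam K a) Q (fun g => e - gval g)
    (fun g hg => hQ g (Finset.mem_filter.mp hg).2.2)
    (fun g hg => by
      obtain ⟨i, hi, hi1⟩ := exists_one_of_notMem_Lam (Finset.mem_filter.mp hg).2.2
      refine ⟨i, hi, ?_⟩
      rw [Finsupp.tsub_apply, hi1]
      obtain ⟨⟨m, hm⟩, h0⟩ := he i
      refine ⟨m - 1, ?_⟩
      omega)
    (P := ⊥) Ideal.isPrime_bot hbot (by rw [hLC, map_one]; exact one_ne_zero)
  refine ⟨P, h1, h2, ?_, h6, ?_, hB1 P h1 h2 h6⟩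
  · rw [hc, zero_add, card_diff haK] at h5
    have h7 : 2 ^ a ≤ 2 ^ (2 * K - a) := Nat.pow_le_pow_right (by norm_num) (by omega)
    omega
  · intro g hg hg'
    exact h4 g (Finset.mem_filter.mpr ⟨Finset.mem_univ _, hg, hg'⟩)


end P199K
end

section

namespace P199K

open MvPolynomial P199H

variable {𝕜 : Type} [Field 𝕜]

/-- (B1) for weighted polynomial rings -/
theorem B1_poly {J ι : Type} [Fintype J] [Fintype ι] (w : J → ι →₀ ℕ) (hw : ∀ j, w j ≠ 0)
    (I : Set ι) (s : Finset J) (heven : ∀ j ∉ s, ∀ i ∉ I, Even (w j i))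
    (hodd : ∀ j ∈ s, rho I (dotTh (w j)) ≠ 0) {P : Ideal (MvPolynomial J 𝕜)} (hP : P.IsPrime)
    (hH : HomI w P) (hLC : rho I ((polySys w hw).LC P) ≠ 0) : P ≤ vI s := by
  classical
  refine (polySys w hw).B1 w ?_ (fun j => isWeightedHomogeneous_X 𝕜 w j) I s ?_ (rho I)
    (rho_two I) (fun i hi => by rw [rho_X, if_pos hi]) hodd hP hH hLC
  · intro p hp m
    rw [Ideal.mem_bot] at hp ⊢
    rw [hp, map_zero]
  · intro P hP hH hX
    have h1 := kp_vars (k := 𝕜) (fun j => j ∉ s) w hw hH (fun j hj => hX j (not_not.mp hj))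
    refine ⟨kp (fun j : {j // j ∉ s} => w j) (fun _ => hw _)
        (P.comap (rename (Subtype.val : {j // j ∉ s} → J) :
          MvPolynomial {j // j ∉ s} 𝕜 →ₐ[𝕜] MvPolynomial J 𝕜)), ?_, h1.trans ?_⟩
    · refine kp_even _ _ (fun j i hi => heven j.1 j.2 i hi) ?_
      intro x hx m
      rw [Ideal.mem_comap] at hx ⊢
      have := rename_weightedHomogeneousComponent (k := 𝕜)
        (Subtype.val : {j // j ∉ s} → J) w m x
      change rename _ _ ∈ P
      rw [this]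
      exact hH _ hx m
    · congr 1
      refine Fintype.prod_equiv (Equiv.subtypeEquivRight fun j => by simp) _ _ ?_
      intro j
      rfl

variable {K : ℕ}

theorem gval_eq_vl (g : Gam K) : gval g = vl g := by
  ext i
  rw [gval_apply, vl_apply]

theorem wt_sz (r : ℕ) (i : Ix K) :
    Wt (wz r) (sz i : MvPolynomial (Jz K) 𝕜) 0 (Finsupp.single i 2) := Wt.X (Sum.inr i)

theorem homTw_zgen {r : ℕ} (hr : 1 ≤ r) :
    HomTw (wz r) (r • D0) (zgen : Tw K (MvPolynomial (Jz K) 𝕜) sz) := by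
  intro g
  by_cases h : g = 0
  · subst h
    rw [zgen_zero]
    exact Wt.zero _ _
  · rw [zgen_apply h]
    refine Wt.of_isWH (isWeightedHomogeneous_X 𝕜 (wz r) (Sum.inl ⟨g, h⟩)) ?_
    rw [wz_inl, ← gval_eq_vl]
    exact tsub_add_cancel_of_le (gval_le_smul_D0 g hr)

/-- **L6**, given `L5` for one explicit good prime -/
theorem L6_of (h𝕜 : (2 : 𝕜) ≠ 0) {a r : ℕ} (ha : 1 ≤ a) (haK : a ≤ K) (hr : 1 ≤ r)
    (hL5 : ∀ P : Ideal (MvPolynomial (Jz K) 𝕜), P.IsPrime → HomI (wz r) P →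
      ¬ 2 ∣ (polySys (wz r) (wz_ne_zero hr)).LC P → (∀ i, sz i ∉ P) →
      NoZeroDivisors (Tw K (MvPolynomial (Jz K) 𝕜 ⧸ P) (fun i => Ideal.Quotient.mk P (sz i)))) :
    ∃ P : Ideal (MvPolynomial (Jz K) 𝕜), P.IsPrime ∧ HomI (wz r) P ∧
      (polySys (wz r) (wz_ne_zero hr)).c P + 2 ^ a ≤ 2 ^ (2 * K - a) ∧
      ¬ 2 ∣ (polySys (wz r) (wz_ne_zero hr)).LC P ∧
      ∃ N : Fin (2 ^ a + 1) → (MvPolynomial (Jz K) 𝕜 ⧸ P), N ≠ 0 ∧
        ∑ i, N i • (Tw.map (Ideal.Quotient.mk P) (fun _ => rfl) zgen :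
          Tw K (MvPolynomial (Jz K) 𝕜 ⧸ P) (fun i => Ideal.Quotient.mk P (sz i))) ^ (i : ℕ) = 0 := by
  classical
  set H := polySys (𝕜 := 𝕜) (wz (K := K) r) (wz_ne_zero hr) with hH
  have hbot : H.HI ⊥ := by
    intro p hp m
    rw [Ideal.mem_bot] at hp ⊢
    rw [hp, map_zero]
  have hX : ∀ j, H.Hom (X j) (wz r j) := fun j => isWeightedHomogeneous_X 𝕜 (wz r) j
  have hK : H.K ⊥ = 1 := kp_bot _ _
  have hd : 2 ≤ 2 ^ a := by
    calc 2 = 2 ^ 1 := (pow_one 2).symm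
      _ ≤ 2 ^ a := Nat.pow_le_pow_right (by norm_num) ha
  -- the prime `P*`
  set z : Tw K (MvPolynomial (Jz K) 𝕜) sz := zgen with hz
  set n : ℕ := ∑ i : Fin (2 ^ a), (i : ℕ) + ∑ j : Fin (2 ^ a + 1), (j : ℕ) with hn
  have hn0 : n ≠ 0 := by
    have h1 : ((⟨1, by omega⟩ : Fin (2 ^ a)) : ℕ) ≤ ∑ i : Fin (2 ^ a), (i : ℕ) :=
      Finset.single_le_sum (f := fun i : Fin (2 ^ a) => (i : ℕ)) (fun _ _ => Nat.zero_le _)
        (Finset.mem_univ _)
    have h2 : 1 ≤ ∑ i : Fin (2 ^ a), (i : ℕ) := h1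
    omega
  obtain ⟨P, hP, hHP, hc, hLC, hQ, hle⟩ := exists_Pstar_abs H haK hr hbot hK
    (polySys_c_bot _ _) (fun P hP hHP hLC => B1_poly (𝕜 := 𝕜) (wz r) (wz_ne_zero hr) (IL K a) (sL K a)
      (fun j hj i hi => wz_even j hj i hi) (fun j hj => rho_wz hr j hj) hP hHP hLC)
    (fun g => Qel Tw.tau z (2 ^ a) g) (n • (r • D0))
    (fun i => by
      rw [Finsupp.smul_apply, Finsupp.smul_apply, D0_apply, smul_eq_mul, smul_eq_mul]
      refine ⟨(even_two.mul_left r).mul_left n, ?_⟩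
      have : r ≠ 0 := by omega
      positivity)
    (fun g _ => by
      have := (wt_Qel (wt_sz (𝕜 := 𝕜) r) (homTw_zgen hr) (2 ^ a) g).isWH
      rw [gval_eq_vl]
      exact this)
  have hnP : (vI (sL K a) : Ideal (MvPolynomial (Jz K) 𝕜)).IsPrime := vI_isPrime _
  have hsn : ∀ i : Ix K, (sz i : MvPolynomial (Jz K) 𝕜) ∉ vI (sL K a) :=
    fun i => X_notMem_vI inr_notMem_sL
  have hdom1 := hL5 (vI (sL K a)) hnP (H.HI_vI (wz r) hbot hX _)
    (not_dvd_of_rho (LC_nn H hr hbot hX hK)) hsn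
  haveI := hP
  haveI := hnP
  set nn : Ideal (MvPolynomial (Jz K) 𝕜) := vI (sL K a) with hnn
  have h2 : (1 : MvPolynomial (Jz K) 𝕜 ⧸ nn) ≠ -1 := by
    intro h
    have h3 : (2 : MvPolynomial (Jz K) 𝕜 ⧸ nn) = 0 := by
      have : (2 : MvPolynomial (Jz K) 𝕜 ⧸ nn) = 1 + 1 := by norm_num
      rw [this]
      nth_rewrite 1 [h]
      exact neg_add_cancel 1
    have h4 : algebraMap 𝕜 (MvPolynomial (Jz K) 𝕜 ⧸ nn) 2 = 0 := by
      rw [map_ofNat]; exact h3
    exact h𝕜 ((map_eq_zero_iff _ (algebraMap 𝕜 (MvPolynomial (Jz K) 𝕜 ⧸ nn)).injective).1 h4)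
  have hF := B2 haK h2 (Ideal.Quotient.factor hle) (Ideal.Quotient.factor_surjective hle)
    (s := fun i => Ideal.Quotient.mk P (sz i)) (s' := fun i => Ideal.Quotient.mk nn (sz i))
    (fun i => Ideal.Quotient.factor_mk hle _)
    (fun i h => hsn i (Ideal.Quotient.eq_zero_iff_mem.mp h))
    (Tw.noZeroDivisors_frac (fun _ => rfl))
    (Tw.map (Ideal.Quotient.mk P) (fun _ => rfl) z)
    (fun γ hγ => by
      rw [Tw.map_apply, Ideal.Quotient.factor_mk, Ideal.Quotient.eq_zero_iff_mem]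
      have h0 : γ ≠ 0 := fun h => hγ (h ▸ (Lam K a).zero_mem)
      rw [hz, zgen_apply h0]
      exact X_mem_vI (inl_mem_sL.mpr hγ))
    (fun γ hγ h0 => by
      rw [Tw.map_apply, Ideal.Quotient.factor_mk, Ne, Ideal.Quotient.eq_zero_iff_mem, hz,
        zgen_apply h0]
      exact X_notMem_vI fun h => inl_mem_sL.mp h hγ)
    (fun γ h1 h3 => by
      have h4 : (Tw.map (Ideal.Quotient.mk P) (fun _ => rfl) (Qel Tw.tau z (2 ^ a)) :
          Tw K (MvPolynomial (Jz K) 𝕜 ⧸ P) (fun i => Ideal.Quotient.mk P (sz i))) =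
          Qel Tw.tau (Tw.map (Ideal.Quotient.mk P) (fun _ => rfl) z) (2 ^ a) := by
        unfold Qel
        rw [map_sum]
        refine Finset.sum_congr rfl fun j _ => ?_
        rw [Tw.map_smul, map_pow, map_Nco (Ideal.Quotient.mk P)
          (Tw.map (Ideal.Quotient.mk P) (fun _ => rfl)) Tw.tau Tw.tau (fun _ => rfl)]
      rw [← h4, Tw.map_apply]
      exact Ideal.Quotient.eq_zero_iff_mem.mpr (hQ γ h1 h3))
  refine ⟨P, hP, hHP, hc, not_dvd_of_rho hLC, _, ?_, hF.1⟩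
  intro h
  exact hF.2 (congrFun h (Fin.last _))


/-- The input from L5 needed for L6. -/
def L5Stmt (𝕜 : Type) [Field 𝕜] (K : ℕ) : Prop :=
  ∀ (r : ℕ) (hr : 1 ≤ r) (P : Ideal (MvPolynomial (Jz K) 𝕜)), P.IsPrime → HomI (wz r) P →
    ¬ (2 : MvPolynomial (Ix K) ℤ) ∣ (polySys (wz r) (wz_ne_zero hr)).LC P → (∀ i, sz i ∉ P) →
    NoZeroDivisors (Tw K (MvPolynomial (Jz K) 𝕜 ⧸ P) (fun i => Ideal.Quotient.mk P (sz i)))

theorem L6Stmt_of (h𝕜 : (2 : 𝕜) ≠ 0) {K : ℕ} (h5 : L5Stmt 𝕜 K) : L6Stmt 𝕜 K := by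
  intro a r ha haK hr
  obtain ⟨P, h1, h2, h3, h4, N, hN, hrel⟩ := L6_of h𝕜 ha haK hr (h5 r hr)
  refine ⟨P, h1, h2, h4, (Nat.le_add_right _ _).trans h3, ?_⟩
  intro f
  haveI := h1
  rw [← Ideal.Quotient.eq_zero_iff_mem]
  have h := minors_of_dep (B := MvPolynomial (Jz K) 𝕜 ⧸ P) (G := Gam K)
    (fun b g => ((Tw.map (Ideal.Quotient.mk P) (fun _ => rfl) zgen :
      Tw K (MvPolynomial (Jz K) 𝕜 ⧸ P) (fun i => Ideal.Quotient.mk P (sz i))) ^ (b : ℕ)) g)
    N hN (by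
      intro g
      have := congrArg (fun w : Tw K (MvPolynomial (Jz K) 𝕜 ⧸ P)
        (fun i => Ideal.Quotient.mk P (sz i)) => w g) hrel
      simp only [Tw.sum_apply, Tw.smul_apply, Tw.zero_apply] at this
      exact this) f
  rw [← h, RingHom.map_det]
  congr 1
  ext i j
  simp only [Matrix.of_apply, RingHom.mapMatrix_apply, Matrix.map_apply]
  rw [← map_pow]
  rfl

/-- **L8** (from L5). -/
theorem L8_of_L5 (h𝕜 : (2 : 𝕜) ≠ 0) (h5 : ∀ K, L5Stmt 𝕜 K) (Φ : ℕ → TExp 𝕜) (n K : ℕ) (hK0 : 0 < K) (hK : n + 3 ≤ K) :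
    ∃ P : Ideal (MvPolynomial (J0 K) 𝕜), P.IsPrime ∧ HomI w0 P ∧
      ¬ (2 : MvPolynomial (Ix K) ℤ) ∣ (polySys w0 (w0_ne_zero hK0)).LC P ∧
      4 * (polySys w0 (w0_ne_zero hK0)).c P ≤ 2 ^ (2 * K) ∧
      ∀ (L : Type) [Field L] (φ : MvPolynomial (J0 K) 𝕜 →+* L), (∀ p ∈ P, φ p = 0) →
        ∀ j ≤ n,
          PolyRel L (2 ^ (j + 3))
            (TExp.eval ((algebraMap L (Tw K L (fun i => φ (s0 i)))).comp (φ.comp C))
              (fun v => algebraMap L (Tw K L (fun i => φ (s0 i))) (Tw.tau v))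
              ((φ sigma0)⁻¹ • Tw.map φ (fun _ => rfl) xgen)
              ((φ sigma0)⁻¹ • Tw.map φ (fun _ => rfl) ygen) (Φ j)) :=
  L8_of_L6 (fun K => L6Stmt_of h𝕜 (h5 K)) Φ n K hK0 hK

theorem l5Stmt (K : ℕ) : L5Stmt 𝕜 K := by
  intro r hr P hP hH hLC _
  exact L5 (wz r) (wz_ne_zero hr) (js := Sum.inr) Sum.inr_injective (fun i => rfl) hP hH hLC

end P199K
end

section

namespace P199K

open MvPolynomial P199H

variable {𝕜 : Type} [Field 𝕜]

/-- A good prime does not contain a variable whose weight is even. -/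
theorem X_notMem_of_good {J ι : Type} [Fintype J] [Finite ι] (w : J → Dg ι) (hw : ∀ j, w j ≠ 0)
    {P : Ideal (MvPolynomial J 𝕜)} (hP : P.IsPrime) (hH : HomI w P)
    (hLC : ¬ (2 : MvPolynomial ι ℤ) ∣ (polySys w hw).LC P) (j0 : J)
    (hj0 : (2 : MvPolynomial ι ℤ) ∣ dotTh (w j0)) : (X j0 : MvPolynomial J 𝕜) ∉ P := by
  classical
  intro hX
  apply hLC
  let p : J → Prop := fun j => j ≠ j0
  let w' : {j // p j} → Dg ι := fun j => w j
  have hw' : ∀ j, w' j ≠ 0 := fun _ => hw _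
  set ren : MvPolynomial {j // p j} 𝕜 →ₐ[𝕜] MvPolynomial J 𝕜 := rename Subtype.val with hren
  have hkp := kp_vars (k := 𝕜) p w hw hH (fun j hj => by
    have : j = j0 := not_not.mp hj
    rw [this]; exact hX)
  have hP' : (P.comap ren).IsPrime := Ideal.IsPrime.comap ren
  have hH' : HomI w' (P.comap ren) := by
    intro x hx m
    rw [Ideal.mem_comap] at hx ⊢
    have := rename_weightedHomogeneousComponent (k := 𝕜) (Subtype.val : {j // p j} → J) w m x
    change rename _ _ ∈ P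
    rw [this]
    exact hH _ hx m
  -- the projection
  let f : MvPolynomial J 𝕜 →ₐ[𝕜] MvPolynomial {j // p j} 𝕜 :=
    aeval (fun j => if h : p j then X ⟨j, h⟩ else 0)
  have hfX : ∀ (j : J) (h : p j), f (X j) = X ⟨j, h⟩ := by
    intro j h
    simp only [f, aeval_X, dif_pos h]
  have hf0 : f (X j0) = 0 := by
    have : ¬ p j0 := fun h => h rfl
    simp only [f, aeval_X, dif_neg this]
  have hfr : ∀ x, f (ren x) = x := by
    intro x
    have : (f.comp ren) = AlgHom.id 𝕜 _ := by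
      apply MvPolynomial.algHom_ext
      rintro ⟨j, h⟩
      simp only [AlgHom.comp_apply, hren, rename_X, hfX j h, AlgHom.id_apply]
    exact DFunLike.congr_fun this x
  have hf : Function.Surjective f := fun x => ⟨ren x, hfr x⟩
  have hsub : ∀ x, x - ren (f x) ∈ P := by
    intro x
    induction x using MvPolynomial.induction_on with
    | C a => simp [hren]
    | add x y hx hy =>
      have : x + y - ren (f (x + y)) = (x - ren (f x)) + (y - ren (f y)) := by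
        rw [map_add, map_add]; ring
      rw [this]
      exact P.add_mem hx hy
    | mul_X x j hx =>
      have : x * X j - ren (f (x * X j)) = (x - ren (f x)) * X j +
          ren (f x) * (X j - ren (f (X j))) := by
        rw [map_mul, map_mul]; ring
      rw [this]
      refine P.add_mem (P.mul_mem_right _ hx) (P.mul_mem_left _ ?_)
      by_cases h : p j
      · rw [hfX j h, hren, rename_X, sub_self]
        exact P.zero_mem
      · have h' : j = j0 := not_not.mp h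
        rw [h', hf0, map_zero, sub_zero]
        exact hX
  have hcomap : (P.comap ren).comap f = P := by
    ext x
    rw [Ideal.mem_comap, Ideal.mem_comap]
    constructor
    · intro h
      have := P.add_mem (hsub x) h
      rwa [sub_add_cancel] at this
    · intro h
      have := P.sub_mem h (hsub x)
      rwa [sub_sub_cancel] at this
  have htd : td P = td (P.comap ren) := by
    have := td_eq_of_surjective f hf (P.comap ren)
    rw [hcomap] at this
    exact this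
  have hcard : Fintype.card J = Fintype.card {j // p j} + 1 := by
    rw [Fintype.card_subtype_compl (fun j => j = j0)]
    simp only [Fintype.card_subtype_eq]
    have : 0 < Fintype.card J := Fintype.card_pos_iff.2 ⟨j0⟩
    omega
  have hle : td (P.comap ren) ≤ Fintype.card {j // p j} := td_le_card _
  have hc : (polySys w hw).c P = (polySys w' hw').c (P.comap ren) + 1 := by
    rw [polySys_c, polySys_c]
    omega
  have hprod : ∏ j : {j // ¬ p j}, (1 - monomial (w j) (1 : ℤ)) = 1 - monomial (w j0) 1 := by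
    have hu : ∀ j : {j // ¬ p j}, j = ⟨j0, fun h => h rfl⟩ := by
      rintro ⟨j, h⟩
      exact Subtype.ext (not_not.mp h)
    rw [Fintype.prod_eq_single (⟨j0, fun h => h rfl⟩ : {j // ¬ p j})]
    intro j hj
    exact absurd (hu j) hj
  have hd := (polySys w' hw').X_pow_dvd_prime hP' hH'
  have hd2 : (Polynomial.X : Polynomial (MvPolynomial ι ℤ)) ^ 1 ∣
      phi (1 - monomial (w j0) (1 : ℤ)) := by
    rw [pow_one, Polynomial.X_dvd_iff]
    exact HSys.phi_one_sub_coeff_zero _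
  have hmain : (polySys w hw).LC P = (phi (kp w' hw' (P.comap ren))).coeff
      ((polySys w' hw').c (P.comap ren)) * dotTh (w j0) := by
    have h1 : (polySys w hw).LC P = (phi (kp w hw P)).coeff ((polySys w hw).c P) := rfl
    rw [h1, hkp, hprod, map_mul, hc]
    refine (coeff_mul_of_dvd (m := (polySys w' hw').c (P.comap ren)) (n := 1) hd hd2).trans ?_
    rw [HSys.phi_one_sub_coeff_one]
    rfl
  rw [hmain]
  exact Dvd.dvd.mul_left hj0 _

end P199K
end
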