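import Vale.Agent.P199.H128.K3

/-!
# P199 over a perfect field of characteristic different from two, part 4

* derivations dual to a separating transcendence basis;
* L9: the transcendence degree bound.
-/

set_option linter.all false

section

namespace P199K

open P199H

open scoped IntermediateField.algebraAdjoinAdjoin in
/-- derivations with prescribed values on a separating transcendence basis -/
theorem exists_derivation_of_sep {𝕜 L : Type} [Field 𝕜] [Field L] [Algebra 𝕜 L] {σ : Type}
    (x : σ → L) (hx : AlgebraicIndependent 𝕜 x)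
    [Algebra.IsSeparable (IntermediateField.adjoin 𝕜 (Set.range x)) L] (v : σ → L) :
    ∃ D : Derivation 𝕜 L L, ∀ i, D (x i) = v i := by
  classical
  have e1 : Algebra.FormallyEtale (Algebra.adjoin 𝕜 (Set.range x))
      (IntermediateField.adjoin 𝕜 (Set.range x)) :=
    Algebra.FormallyEtale.of_isLocalization (nonZeroDivisors _)
  have e2 : Algebra.FormallyEtale (IntermediateField.adjoin 𝕜 (Set.range x)) L :=
    Algebra.FormallyEtale.of_isSeparable _ L
  have e3 : Algebra.FormallyEtale (Algebra.adjoin 𝕜 (Set.range x)) L :=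
    Algebra.FormallyEtale.comp _ (IntermediateField.adjoin 𝕜 (Set.range x)) _
  letI algAL : Algebra (MvPolynomial σ 𝕜) L := (MvPolynomial.aeval (R := 𝕜) x).toAlgebra
  have hmap : ∀ (a : MvPolynomial σ 𝕜) (l : L), a • l = MvPolynomial.aeval x a * l :=
    fun a l => rfl
  have tow : IsScalarTower 𝕜 (MvPolynomial σ 𝕜) L := IsScalarTower.of_algebraMap_eq (fun q => by
    change _ = MvPolynomial.aeval x (algebraMap 𝕜 (MvPolynomial σ 𝕜) q)
    rw [MvPolynomial.algebraMap_eq, MvPolynomial.aeval_C])
  let d0 : Derivation 𝕜 (MvPolynomial σ 𝕜) L := MvPolynomial.mkDerivation 𝕜 v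
  have he : ∀ a : Algebra.adjoin 𝕜 (Set.range x),
      MvPolynomial.aeval x (hx.aevalEquiv.symm a) = (a : L) := by
    intro a
    have := hx.algebraMap_aevalEquiv (hx.aevalEquiv.symm a)
    rw [AlgEquiv.apply_symm_apply] at this
    exact this.symm
  let d : Derivation 𝕜 (Algebra.adjoin 𝕜 (Set.range x)) L :=
    { toLinearMap := (d0 : MvPolynomial σ 𝕜 →ₗ[𝕜] L) ∘ₗ hx.aevalEquiv.symm.toLinearMap
      map_one_eq_zero' := by
        change d0 (hx.aevalEquiv.symm 1) = 0
        rw [map_one, Derivation.map_one_eq_zero]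
      leibniz' := by
        intro a b
        change d0 (hx.aevalEquiv.symm (a * b)) =
          a • d0 (hx.aevalEquiv.symm b) + b • d0 (hx.aevalEquiv.symm a)
        rw [map_mul, Derivation.leibniz, hmap, hmap, he, he]
        rfl }
  obtain ⟨D, hD⟩ := exists_derivation_extend (R := 𝕜) (A := Algebra.adjoin 𝕜 (Set.range x))
    (T := L) d
  refine ⟨D, fun i => ?_⟩
  have h1 := hD ⟨x i, Algebra.subset_adjoin ⟨i, rfl⟩⟩
  have h2 : hx.aevalEquiv.symm ⟨x i, Algebra.subset_adjoin ⟨i, rfl⟩⟩ = MvPolynomial.X i := by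
    rw [AlgEquiv.symm_apply_eq]
    apply Subtype.ext
    have := hx.algebraMap_aevalEquiv (MvPolynomial.X i)
    rw [MvPolynomial.aeval_X] at this
    exact this.symm
  have h3 : d ⟨x i, Algebra.subset_adjoin ⟨i, rfl⟩⟩ =
      d0 (hx.aevalEquiv.symm ⟨x i, Algebra.subset_adjoin ⟨i, rfl⟩⟩) := rfl
  rw [h3, h2] at h1
  have h4 : d0 (MvPolynomial.X i) = v i := MvPolynomial.mkDerivation_X 𝕜 v i
  rw [h4] at h1
  exact h1

/-- over a perfect field, the field of fractions of `𝕜[J] / P` has `td P` independent
elements with dual derivations -/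
theorem exists_dual {𝕜 : Type} [Field 𝕜] [PerfectField 𝕜] {J : Type} [Finite J]
    (P : Ideal (MvPolynomial J 𝕜)) [hP : P.IsPrime] (L : Type) [Field L]
    [Algebra (MvPolynomial J 𝕜 ⧸ P) L] [IsFractionRing (MvPolynomial J 𝕜 ⧸ P) L]
    [Algebra 𝕜 L] [IsScalarTower 𝕜 (MvPolynomial J 𝕜 ⧸ P) L] :
    ∃ (b : Fin (td P) → L) (D : Fin (td P) → Derivation 𝕜 L L),
      ∀ i j, D i (b j) = if i = j then 1 else 0 := by
  classical
  have h1 : Algebra.EssFiniteType (MvPolynomial J 𝕜 ⧸ P) L :=
    Algebra.EssFiniteType.of_isLocalization _ (nonZeroDivisors (MvPolynomial J 𝕜 ⧸ P))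
  have h2 : Algebra.EssFiniteType 𝕜 L :=
    Algebra.EssFiniteType.comp 𝕜 (MvPolynomial J 𝕜 ⧸ P) L
  obtain ⟨s, hs, hsep⟩ := exists_isTranscendenceBasis_and_isSeparable_of_perfectField 𝕜 L
  have hsep' : Algebra.IsSeparable
      (IntermediateField.adjoin 𝕜 (Set.range ((↑) : s → L))) L := by
    convert! hsep <;> simp
  have hcard : Fintype.card s = td P := by
    have h3 := hs.cardinalMk_eq_trdeg
    obtain ⟨b, hb, hb'⟩ := exists_td P
    have hinj : Function.Injective (algebraMap (MvPolynomial J 𝕜 ⧸ P) L) :=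
      IsFractionRing.injective _ _
    have h4 : Algebra.trdeg 𝕜 L = Algebra.trdeg 𝕜 (MvPolynomial J 𝕜 ⧸ P) := by
      have halg : Algebra.IsAlgebraic (MvPolynomial J 𝕜 ⧸ P) L :=
        IsLocalization.isAlgebraic L (nonZeroDivisors (MvPolynomial J 𝕜 ⧸ P))
      have hf1 : FaithfulSMul (MvPolynomial J 𝕜 ⧸ P) L :=
        (faithfulSMul_iff_algebraMap_injective _ _).2 hinj
      have hf2 : FaithfulSMul 𝕜 (MvPolynomial J 𝕜 ⧸ P) := inferInstance
      have h5 := trdeg_add_eq 𝕜 (MvPolynomial J 𝕜 ⧸ P) (A := L)
      rw [trdeg_eq_zero (R := MvPolynomial J 𝕜 ⧸ P) (A := L), add_zero] at h5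
      exact h5.symm
    rw [td, ← h4, ← h3]
    simp
  let e : Fin (td P) ≃ s := (Fintype.equivFinOfCardEq hcard).symm
  have key : ∀ i : Fin (td P), ∃ D : Derivation 𝕜 L L,
      ∀ j, D ((e j : s) : L) = if i = j then 1 else 0 := by
    intro i
    obtain ⟨D, hD⟩ := exists_derivation_of_sep ((↑) : s → L) hs.1
      (fun a => if a = e i then 1 else 0)
    refine ⟨D, fun j => ?_⟩
    rw [hD]
    by_cases h : i = j
    · rw [if_pos h, if_pos (by rw [h])]
    · rw [if_neg h, if_neg fun h' => h (e.injective h').symm]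
  choose D hD using key
  exact ⟨fun j => ((e j : s) : L), D, hD⟩

end P199K
end

section

namespace P199K

open Module P199H

variable {𝕜 : Type} [Field 𝕜]


section ext

variable {L : Type} [Field L] [Algebra 𝕜 L] {D : Type} [Ring D] [Algebra L D]
  {G : Type} [Fintype G] (X : Basis G L D) (δ : Derivation 𝕜 L L)

/-- the coefficientwise extension of a derivation -/
noncomputable def ext (u : D) : D := ∑ g, δ (X.repr u g) • X g

theorem ext_add (u v : D) : ext X δ (u + v) = ext X δ u + ext X δ v := by
  simp only [ext, map_add, Finsupp.add_apply, add_smul, Finset.sum_add_distrib]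

theorem ext_zero : ext X δ 0 = 0 := by
  simp [ext]

theorem ext_sum {ι : Type} (s : Finset ι) (f : ι → D) :
    ext X δ (∑ i ∈ s, f i) = ∑ i ∈ s, ext X δ (f i) := by
  classical
  induction s using Finset.induction_on with
  | empty => simp [ext_zero]
  | insert a s ha ih => rw [Finset.sum_insert ha, Finset.sum_insert ha, ext_add, ih]

theorem ext_smul (l : L) (u : D) : ext X δ (l • u) = δ l • u + l • ext X δ u := by
  have h : ext X δ (l • u) = ∑ g, (l • δ (X.repr u g) • X g + δ l • X.repr u g • X g) := by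
    apply Finset.sum_congr rfl
    intro g _
    rw [map_smul, Finsupp.smul_apply, smul_eq_mul, Derivation.leibniz, add_smul, smul_smul,
      smul_smul, smul_eq_mul, smul_eq_mul, mul_comm (X.repr u g) (δ l)]
  rw [h, Finset.sum_add_distrib, ← Finset.smul_sum, ← Finset.smul_sum, X.sum_repr, add_comm]
  rfl

theorem repr_ext (u : D) (g : G) : X.repr (ext X δ u) g = δ (X.repr u g) := by
  classical
  rw [ext, Basis.repr_sum_self]

theorem ext_eq_zero_iff (u : D) : ext X δ u = 0 ↔ ∀ g, δ (X.repr u g) = 0 := by
  constructor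
  · intro h g
    rw [← repr_ext, h]
    simp
  · intro h
    simp [ext, h]

theorem ext_mul (hc : ∀ g h, ext X δ (X g * X h) = 0) (u v : D) :
    ext X δ (u * v) = ext X δ u * v + u * ext X δ v := by
  have key : ∀ (g : G) (w : D), ext X δ (X g * w) = X g * ext X δ w := by
    intro g w
    have h1 : X g * w = ∑ h, X.repr w h • (X g * X h) := by
      conv_lhs => rw [← X.sum_repr w, Finset.mul_sum]
      apply Finset.sum_congr rfl
      intro h _
      rw [mul_smul_comm]
    rw [h1, ext_sum, ext, Finset.mul_sum]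
    apply Finset.sum_congr rfl
    intro h _
    rw [ext_smul, hc, smul_zero, add_zero, mul_smul_comm]
  have h2 : u * v = ∑ g, X.repr u g • (X g * v) := by
    conv_lhs => rw [← X.sum_repr u, Finset.sum_mul]
    apply Finset.sum_congr rfl
    intro g _
    rw [smul_mul_assoc]
  have h3 : u * ext X δ v = ∑ g, X.repr u g • (X g * ext X δ v) := by
    conv_lhs => rw [← X.sum_repr u, Finset.sum_mul]
    apply Finset.sum_congr rfl
    intro g _
    rw [smul_mul_assoc]
  have h4 : ext X δ u * v = ∑ g, δ (X.repr u g) • (X g * v) := by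
    rw [ext, Finset.sum_mul]
    apply Finset.sum_congr rfl
    intro g _
    rw [smul_mul_assoc]
  rw [h2, ext_sum, h3, h4, ← Finset.sum_add_distrib]
  apply Finset.sum_congr rfl
  intro g _
  rw [ext_smul, key]

theorem ext_der_smul (c : L) (u : D) : ext X (c • δ) u = c • ext X δ u := by
  simp only [ext, Derivation.coe_smul, Pi.smul_apply, Finset.smul_sum, smul_smul, smul_eq_mul]

theorem ext_der_add (δ' : Derivation 𝕜 L L) (u : D) :
    ext X (δ + δ') u = ext X δ u + ext X δ' u := by
  simp only [ext, Derivation.coe_add, Pi.add_apply, add_smul, Finset.sum_add_distrib]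

end ext

section generate

variable {L : Type} [Field L] [Algebra 𝕜 L]

/-- a derivation killing a set kills the `𝕜`-algebra it generates -/
theorem der_adjoin (δ : Derivation 𝕜 L L) (S : Set L) (h : ∀ a ∈ S, δ a = 0) (a : L)
    (ha : a ∈ Algebra.adjoin 𝕜 S) : δ a = 0 := by
  induction ha using Algebra.adjoin_induction with
  | mem x hx => exact h x hx
  | algebraMap r => exact δ.map_algebraMap r
  | add x y _ _ hx hy => rw [map_add, hx, hy, add_zero]
  | mul x y _ _ hx hy => rw [Derivation.leibniz, hx, hy, smul_zero, smul_zero, add_zero]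

/-- a derivation killing a set `S` such that every element is a fraction of elements of the
`𝕜`-algebra generated by `S` is zero -/
theorem der_eq_zero_of_frac (δ : Derivation 𝕜 L L) (S : Set L) (h : ∀ a ∈ S, δ a = 0)
    (hS : ∀ l : L, ∃ a ∈ Algebra.adjoin 𝕜 S, ∃ b ∈ Algebra.adjoin 𝕜 S, b ≠ 0 ∧ l = a / b) :
    δ = 0 := by
  ext l
  obtain ⟨a, ha, b, hb, hb0, rfl⟩ := hS l
  have h1 : δ (a / b * b) = 0 := by
    rw [div_mul_cancel₀ a hb0]
    exact der_adjoin δ S h a ha
  rw [Derivation.leibniz, der_adjoin δ S h b hb, smul_zero, zero_add, smul_eq_mul] at h1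
  simpa [hb0] using h1

end generate

section casimir

variable {L : Type} [Field L] {D : Type} [Ring D] [IsDomain D] [Algebra L D]
  [FiniteDimensional L D]

/-- `L`-linear derivations from a subalgebra to the algebra are inner (Casimir element) -/
theorem inner_of_derivation (τ : D →ₗ[L] L) (hτ : ∀ u v, τ (u * v) = τ (v * u))
    (h1 : τ 1 = 1) (D1 : Subalgebra L D) (hD1 : ((Module.finrank L D1 : ℕ) : L) ≠ 0)
    (ψ : D1 →ₗ[L] D)
    (hψ : ∀ u v : D1, ψ (u * v) = ψ u * v + u * ψ v) :
    ∃ z : D, ∀ u : D1, ψ u = z * u - u * z := by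
  classical
  -- the bilinear form on `D1`
  let B : LinearMap.BilinForm L D1 := LinearMap.mk₂ L (fun u v : D1 => τ ((u : D) * v))
    (fun u u' v => by simp [add_mul]) (fun c u v => by simp)
    (fun u v v' => by simp [mul_add]) (fun c u v => by simp)
  have hB : ∀ u v : D1, B u v = τ ((u : D) * v) := fun _ _ => rfl
  have hinv : ∀ u : D1, u ≠ 0 → ∃ v : D1, (u : D) * v = 1 := by
    intro u hu
    have hunit : IsUnit u := FiniteDimensional.isUnit L hu
    obtain ⟨w, hw⟩ := hunit.exists_right_inv
    exact ⟨w, by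
      have := congrArg (Subtype.val) hw
      simpa using this⟩
  have hnd : B.Nondegenerate := by
    constructor
    · intro u hu
      by_contra h0
      obtain ⟨v, hv⟩ := hinv u h0
      have := hu v
      rw [hB, hv, h1] at this
      exact one_ne_zero this
    · intro u hu
      by_contra h0
      obtain ⟨v, hv⟩ := hinv u h0
      have := hu v
      rw [hB, hτ, hv, h1] at this
      exact one_ne_zero this
  let a := Module.finBasis L D1
  let b := B.dualBasis hnd a
  have hb : ∀ i j, τ ((b i : D) * a j) = if j = i then 1 else 0 := by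
    intro i j
    have := LinearMap.BilinForm.apply_dualBasis_left (B := B) hnd a i j
    rw [hB] at this
    exact this
  -- expansions
  have hexpa : ∀ u : D1, u = ∑ j, τ ((b j : D) * u) • a j := by
    intro u
    conv_lhs => rw [← a.sum_repr u]
    apply Finset.sum_congr rfl
    intro j _
    congr 1
    have : (u : D) = ∑ i, a.repr u i • (a i : D) := by
      have h0 := congrArg Subtype.val (a.sum_repr u)
      simp only [AddSubmonoidClass.coe_finsetSum, Subalgebra.coe_smul] at h0
      exact h0.symm
    rw [this, Finset.mul_sum, map_sum, Finset.sum_eq_single j]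
    · rw [mul_smul_comm, map_smul, hb, if_pos rfl, smul_eq_mul, mul_one]
    · intro i _ hij
      rw [mul_smul_comm, map_smul, hb, if_neg hij, smul_zero]
    · simp
  have hexpb : ∀ u : D1, u = ∑ j, τ ((u : D) * a j) • b j := by
    intro u
    conv_lhs => rw [← b.sum_repr u]
    apply Finset.sum_congr rfl
    intro j _
    congr 1
    have : (u : D) = ∑ i, b.repr u i • (b i : D) := by
      have h0 := congrArg Subtype.val (b.sum_repr u)
      simp only [AddSubmonoidClass.coe_finsetSum, Subalgebra.coe_smul] at h0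
      exact h0.symm
    rw [this, Finset.sum_mul, map_sum, Finset.sum_eq_single j]
    · rw [smul_mul_assoc, map_smul, hb, if_pos rfl, smul_eq_mul, mul_one]
    · intro i _ hij
      rw [smul_mul_assoc, map_smul, hb, if_neg (Ne.symm hij), smul_zero]
    · simp
  -- Casimir identity
  have hcas : ∀ (f : D1 →ₗ[L] D) (u : D1),
      ∑ i, f (u * a i) * (b i : D) = (∑ i, f (a i) * (b i : D)) * u := by
    intro f u
    have e1 : ∀ i, f (u * a i) * (b i : D) =
        ∑ j, τ ((b j : D) * (u * a i)) • (f (a j) * (b i : D)) := by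
      intro i
      conv_lhs => rw [hexpa (u * a i), map_sum, Finset.sum_mul]
      apply Finset.sum_congr rfl
      intro j _
      rw [map_smul, smul_mul_assoc]
      rfl
    have e2 : ∀ j, f (a j) * (b j : D) * u =
        ∑ i, τ ((b j : D) * (u * a i)) • (f (a j) * (b i : D)) := by
      intro j
      have e3 : (b j : D) * u = ∑ i, τ ((b j : D) * (u * a i)) • (b i : D) := by
        have := congrArg (Subtype.val) (hexpb (b j * u))
        simp only [Subalgebra.coe_mul, AddSubmonoidClass.coe_finsetSum, Subalgebra.coe_smul] at this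
        rw [this]
        apply Finset.sum_congr rfl
        intro i _
        rw [mul_assoc]
      rw [mul_assoc, e3, Finset.mul_sum]
      apply Finset.sum_congr rfl
      intro i _
      rw [mul_smul_comm]
    rw [Finset.sum_mul]
    simp only [e1, e2]
    rw [Finset.sum_comm]
  let c : D := ∑ i, (a i : D) * (b i : D)
  have hcc : ∀ u : D1, (u : D) * c = c * u := by
    intro u
    have := hcas D1.val.toLinearMap u
    simp only [AlgHom.toLinearMap_apply, Subalgebra.coe_val, Subalgebra.coe_mul] at this
    rw [← this, Finset.mul_sum]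
    apply Finset.sum_congr rfl
    intro i _
    rw [mul_assoc]
  have hc0 : c ≠ 0 := by
    intro h
    have h2 : τ c = (Module.finrank L D1 : L) := by
      rw [map_sum]
      have : ∀ i ∈ Finset.univ, τ ((a i : D) * (b i : D)) = 1 := by
        intro i _
        rw [hτ, hb, if_pos rfl]
      rw [Finset.sum_congr rfl this]
      simp
    rw [h, map_zero] at h2
    exact hD1 h2.symm
  obtain ⟨c', hc'⟩ := (FiniteDimensional.isUnit L hc0 : IsUnit c)
  let w : D := ∑ i, ψ (a i) * (b i : D)
  have hw : ∀ u : D1, ψ u * c = w * u - u * w := by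
    intro u
    have e1 := hcas ψ u
    have e2 : ∑ i, ψ (u * a i) * (b i : D) = ψ u * c + u * w := by
      simp only [c, w, Finset.mul_sum]
      rw [← Finset.sum_add_distrib]
      apply Finset.sum_congr rfl
      intro i _
      rw [hψ, add_mul, mul_assoc, mul_assoc]
    rw [e2] at e1
    rw [← e1]
    abel
  refine ⟨w * (c'⁻¹ : Dˣ), fun u => ?_⟩
  have hcu : (u : D) * (c'⁻¹ : Dˣ) = (c'⁻¹ : Dˣ) * u := by
    have h5 := hcc u
    rw [← hc'] at h5
    have h6 : (↑c'⁻¹ : D) * ((u : D) * c') * (↑c'⁻¹ : D) = (↑c'⁻¹ : D) * (c' * u) * (↑c'⁻¹ : D) := by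
      rw [h5]
    rw [← mul_assoc, mul_assoc _ (c' : D) _, Units.mul_inv, mul_one, ← mul_assoc (↑c'⁻¹ : D),
      Units.inv_mul, one_mul] at h6
    exact h6.symm
  have h7 := hw u
  rw [← hc'] at h7
  have h8 : ψ u = (w * u - u * w) * (↑c'⁻¹ : D) := by
    rw [← h7, mul_assoc, Units.mul_inv, mul_one]
  rw [h8, sub_mul, mul_assoc, hcu]
  simp only [mul_assoc]

end casimir

section main

variable {L : Type} [Field L] [Algebra 𝕜 L] {D : Type} [Ring D] [IsDomain D] [Algebra L D]
  [FiniteDimensional L D] {G : Type} [Fintype G] (X : Basis G L D)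

/-- if `δ` kills the matrices of the left multiplications by `x`, `y` on `L[x,y]`, then the
values of its coefficientwise extension on `x`, `y` come from an inner derivation -/
theorem ext_inner (τ : D →ₗ[L] L) (hτ : ∀ u v, τ (u * v) = τ (v * u)) (h1 : τ 1 = 1)
    (δ : Derivation 𝕜 L L) (hc : ∀ g h, ext X δ (X g * X h) = 0) (x y : D)
    (hfr : ((finrank L (Algebra.adjoin L {x, y}) : ℕ) : L) ≠ 0)
    {ι : Type} [Fintype ι] (u : Basis ι L (Algebra.adjoin L {x, y}))
    (x' y' : Algebra.adjoin L {x, y}) (hx' : (x' : D) = x) (hy' : (y' : D) = y)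
    (ha : ∀ i, ext u δ (x' * u i) = 0) (hb : ∀ i, ext u δ (y' * u i) = 0) :
    ∃ z : D, ext X δ x = z * x - x * z ∧ ext X δ y = z * y - y * z := by
  classical
  have hmul : ∀ w' : Algebra.adjoin L {x, y}, (∀ i, ext u δ (w' * u i) = 0) →
      ∀ v, ext u δ (w' * v) = w' * ext u δ v := by
    intro w' hw v
    have h2 : w' * v = ∑ i, u.repr v i • (w' * u i) := by
      conv_lhs => rw [← u.sum_repr v, Finset.mul_sum]
      apply Finset.sum_congr rfl
      intro h _
      rw [mul_smul_comm]
    rw [h2, ext_sum]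
    have h3 : w' * ext u δ v = ∑ i, δ (u.repr v i) • (w' * u i) := by
      rw [ext, Finset.mul_sum]
      apply Finset.sum_congr rfl
      intro h _
      rw [mul_smul_comm]
    rw [h3]
    apply Finset.sum_congr rfl
    intro i _
    rw [ext_smul, hw, smul_zero, add_zero]
  let der : Algebra.adjoin L {x, y} → Algebra.adjoin L {x, y} := fun v =>
    ext u δ v - v * ext u δ 1
  have der_def : ∀ v, der v = ext u δ v - v * ext u δ 1 := fun _ => rfl
  have der_add : ∀ v w, der (v + w) = der v + der w := by
    intro v w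
    rw [der_def, der_def, der_def, ext_add, add_mul]
    abel
  have der_smul : ∀ (l : L) v, der (l • v) = δ l • v + l • der v := by
    intro l v
    rw [der_def, der_def, ext_smul, smul_sub, smul_mul_assoc]
    abel
  have der_one : der 1 = 0 := by
    rw [der_def, one_mul, sub_self]
  have der_gen : ∀ w' : Algebra.adjoin L {x, y}, (∀ i, ext u δ (w' * u i) = 0) →
      der w' = 0 ∧ ∀ v, der (w' * v) = w' * der v := by
    intro w' hw
    refine ⟨?_, fun v => ?_⟩
    · have := hmul w' hw 1
      rw [mul_one] at this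
      rw [der_def, this, sub_self]
    · rw [der_def, der_def, hmul w' hw, mul_sub, mul_assoc]
  have der_mul : ∀ v w, der (v * w) = der v * w + v * der w := by
    have key : ∀ (v : D) (hv : v ∈ Algebra.adjoin L {x, y}), ∀ w,
        der (⟨v, hv⟩ * w) = der ⟨v, hv⟩ * w + ⟨v, hv⟩ * der w := by
      intro v hv
      refine Algebra.adjoin_induction
        (p := fun v hv => ∀ w, der (⟨v, hv⟩ * w) = der ⟨v, hv⟩ * w + ⟨v, hv⟩ * der w)
        ?_ ?_ ?_ ?_ hv
      · intro v hv w
        rcases hv with hv | hv
        · have e : (⟨v, Algebra.subset_adjoin (Or.inl hv)⟩ : Algebra.adjoin L {x, y}) = x' := by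
            apply Subtype.ext
            rw [hx']
            exact hv
          rw [e, (der_gen x' ha).1, (der_gen x' ha).2, zero_mul, zero_add]
        · have e : (⟨v, Algebra.subset_adjoin (Or.inr hv)⟩ : Algebra.adjoin L {x, y}) = y' := by
            apply Subtype.ext
            rw [hy']
            exact hv
          rw [e, (der_gen y' hb).1, (der_gen y' hb).2, zero_mul, zero_add]
      · intro l w
        have e : (⟨algebraMap L D l, Subalgebra.algebraMap_mem _ l⟩ : Algebra.adjoin L {x, y})
            = l • 1 := by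
          apply Subtype.ext
          simp [Algebra.algebraMap_eq_smul_one]
        rw [e, der_smul, der_one, smul_zero, add_zero, smul_mul_assoc, smul_mul_assoc, one_mul,
          der_smul, smul_mul_assoc, one_mul]
      · intro v w hv hw h1 h2 z
        have e : (⟨v + w, Subalgebra.add_mem _ hv hw⟩ : Algebra.adjoin L {x, y})
            = ⟨v, hv⟩ + ⟨w, hw⟩ := rfl
        rw [e, add_mul, der_add, h1, h2, der_add, add_mul, add_mul]
        abel
      · intro v w hv hw h1 h2 z
        have e : (⟨v * w, Subalgebra.mul_mem _ hv hw⟩ : Algebra.adjoin L {x, y})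
            = ⟨v, hv⟩ * ⟨w, hw⟩ := rfl
        rw [e, mul_assoc, h1, h2, h1, add_mul, mul_add, mul_assoc, mul_assoc, mul_assoc]
        abel
    exact fun v w => key v.1 v.2 w
  let ψ : Algebra.adjoin L {x, y} →ₗ[L] D :=
    { toFun := fun v => ext X δ (v : D) - (der v : D)
      map_add' := by
        intro v w
        rw [Subalgebra.coe_add, ext_add, der_add, Subalgebra.coe_add]
        abel
      map_smul' := by
        intro l v
        rw [Subalgebra.coe_smul, ext_smul, der_smul, Subalgebra.coe_add, Subalgebra.coe_smul,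
          Subalgebra.coe_smul, RingHom.id_apply, smul_sub]
        abel }
  have ψ_def : ∀ v, ψ v = ext X δ (v : D) - (der v : D) := fun _ => rfl
  obtain ⟨z, hz⟩ := inner_of_derivation τ hτ h1 _ hfr ψ (by
    intro v w
    rw [ψ_def, ψ_def, ψ_def, Subalgebra.coe_mul, ext_mul X δ hc, der_mul, Subalgebra.coe_add,
      Subalgebra.coe_mul, Subalgebra.coe_mul, sub_mul, mul_sub]
    abel)
  refine ⟨z, ?_, ?_⟩
  · have := hz x'
    rw [ψ_def, (der_gen x' ha).1, hx'] at this
    simpa using this
  · have := hz y'
    rw [ψ_def, (der_gen y' hb).1, hy'] at this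
    simpa using this

/-- L9: the transcendence degree bound -/
theorem trdeg_bound {N : ℕ} (s : Fin N → L)
    (hc : ∀ δ : Derivation 𝕜 L L, (∀ i, δ (s i) = 0) → ∀ g h, ext X δ (X g * X h) = 0)
    (τ : D →ₗ[L] L) (hτ : ∀ u v, τ (u * v) = τ (v * u)) (h1 : τ 1 = 1) (x y : D)
    (hgen : ∀ δ : Derivation 𝕜 L L, (∀ i, δ (s i) = 0) → (∀ g, δ (X.repr x g) = 0) →
      (∀ g, δ (X.repr y g) = 0) → δ = 0)
    (hfr : ((finrank L (Algebra.adjoin L {x, y}) : ℕ) : L) ≠ 0)
    {r : ℕ} (b : Fin r → L) (δ : Fin r → Derivation 𝕜 L L)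
    (hδ : ∀ i j, δ i (b j) = if i = j then 1 else 0) :
    r ≤ N + finrank L D + 2 * (finrank L (Algebra.adjoin L {x, y})) ^ 2 := by
  classical
  let Δ : (Fin r → L) →ₗ[L] Derivation 𝕜 L L :=
    { toFun := fun c => ∑ i, c i • δ i
      map_add' := fun c c' => by
        simp only [Pi.add_apply, add_smul, Finset.sum_add_distrib]
      map_smul' := fun l c => by
        simp only [Pi.smul_apply, smul_eq_mul, RingHom.id_apply, Finset.smul_sum, mul_smul] }
  have hΔb : ∀ c j, Δ c (b j) = c j := by
    intro c j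
    have : Δ c (b j) = ∑ i, c i • δ i (b j) := by
      change (∑ i, c i • δ i) (b j) = _
      have h0 : ((∑ i, c i • δ i : Derivation 𝕜 L L) : L → L) = ∑ i, ⇑(c i • δ i) :=
        map_sum (Derivation.coeFnAddMonoidHom (R := 𝕜) (A := L) (M := L)) _ _
      rw [h0, Finset.sum_apply]
      rfl
    rw [this, Finset.sum_eq_single j]
    · rw [hδ, if_pos rfl, smul_eq_mul, mul_one]
    · intro i _ hij
      rw [hδ, if_neg hij, smul_zero]
    · simp
  let x' : Algebra.adjoin L {x, y} := ⟨x, Algebra.subset_adjoin (Or.inl rfl)⟩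
  let y' : Algebra.adjoin L {x, y} := ⟨y, Algebra.subset_adjoin (Or.inr rfl)⟩
  let u := Module.finBasis L (Algebra.adjoin L {x, y})
  let E := (Fin (finrank L (Algebra.adjoin L {x, y})) → Algebra.adjoin L {x, y})
  let f : (Fin r → L) →ₗ[L] (Fin N → L) × (E × E) :=
    { toFun := fun c => (fun i => Δ c (s i), (fun i => ext u (Δ c) (x' * u i),
        fun i => ext u (Δ c) (y' * u i)))
      map_add' := fun c c' => by
        rw [map_add]
        refine Prod.ext ?_ (Prod.ext ?_ ?_)
        · rfl
        · funext i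
          exact ext_der_add u _ _ _
        · funext i
          exact ext_der_add u _ _ _
      map_smul' := fun l c => by
        rw [map_smul]
        refine Prod.ext ?_ (Prod.ext ?_ ?_)
        · rfl
        · funext i
          exact ext_der_smul u _ _ _
        · funext i
          exact ext_der_smul u _ _ _ }
  let K := LinearMap.ker f
  let Ψ : (Fin r → L) →ₗ[L] D × D :=
    { toFun := fun c => (ext X (Δ c) x, ext X (Δ c) y)
      map_add' := fun c c' => by
        rw [map_add]
        exact Prod.ext (ext_der_add X _ _ _) (ext_der_add X _ _ _)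
      map_smul' := fun l c => by
        rw [map_smul]
        exact Prod.ext (ext_der_smul X _ _ _) (ext_der_smul X _ _ _) }
  let R : D →ₗ[L] D × D :=
    { toFun := fun z => (z * x - x * z, z * y - y * z)
      map_add' := fun z z' => by
        refine Prod.ext ?_ ?_ <;> simp only [add_mul, mul_add, Prod.fst_add, Prod.snd_add] <;> abel
      map_smul' := fun l z => by
        refine Prod.ext ?_ ?_ <;> simp [smul_sub] }
  have hK : ∀ c ∈ K, (∀ i, Δ c (s i) = 0) ∧ (∀ i, ext u (Δ c) (x' * u i) = 0) ∧
      (∀ i, ext u (Δ c) (y' * u i) = 0) := by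
    intro c hc
    have h : f c = 0 := hc
    refine ⟨fun i => congrFun (congrArg Prod.fst h) i,
      fun i => congrFun (congrArg (fun p => p.2.1) h) i,
      fun i => congrFun (congrArg (fun p => p.2.2) h) i⟩
  have hinj : Function.Injective (Ψ.domRestrict K) := by
    rw [injective_iff_map_eq_zero]
    rintro ⟨c, hcK⟩ h
    have h2 : Ψ c = 0 := h
    have h3 : ext X (Δ c) x = 0 := congrArg Prod.fst h2
    have h4 : ext X (Δ c) y = 0 := congrArg Prod.snd h2
    have h5 : Δ c = 0 := hgen _ (hK c hcK).1 ((ext_eq_zero_iff X _ _).1 h3)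
      ((ext_eq_zero_iff X _ _).1 h4)
    apply Subtype.ext
    funext j
    have := hΔb c j
    rw [h5] at this
    exact this.symm
  have hrange : LinearMap.range (Ψ.domRestrict K) ≤ LinearMap.range R := by
    rintro _ ⟨⟨c, hcK⟩, rfl⟩
    obtain ⟨z, hz1, hz2⟩ := ext_inner X τ hτ h1 (Δ c) (hc _ (hK c hcK).1) x y hfr u x' y' rfl rfl
      (hK c hcK).2.1 (hK c hcK).2.2
    exact ⟨z, Prod.ext hz1.symm hz2.symm⟩
  have d1 : finrank L K ≤ finrank L D := by
    rw [← LinearMap.finrank_range_of_inj hinj]
    exact (Submodule.finrank_mono hrange).trans (LinearMap.finrank_range_le R)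
  have d2 := LinearMap.finrank_range_add_finrank_ker f
  have d3 : finrank L (LinearMap.range f) ≤
      N + 2 * (finrank L (Algebra.adjoin L {x, y})) ^ 2 := by
    refine (Submodule.finrank_le _).trans ?_
    rw [Module.finrank_prod, Module.finrank_prod, Module.finrank_fin_fun]
    have e : finrank L E = (finrank L (Algebra.adjoin L {x, y})) ^ 2 := by
      rw [Module.finrank_pi_fintype]
      simp [sq]
    rw [e]
    omega
  rw [Module.finrank_fin_fun] at d2
  change finrank L (LinearMap.range f) + finrank L K = r at d2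
  omega

end main

end P199K
end
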