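import Vale.Agent.P199.H128.K4

/-!
# P199 over an arbitrary countable field of characteristic different from two, part 5

The limit argument (L10), with coefficients in a field `𝕜`, and the degrees of the elements.
-/

set_option linter.all false

section

open Polynomial

namespace P199K

open Vale.Agent.P199.H P199H

section hankel

variable {L D : Type*} [Field L] [DivisionRing D] [Algebra L D]

/-- **Hankel descent**, with the degree. If `τ (w ^ k)` lies in the subfield `F` for all `k` and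
`w` is algebraic over `L`, then `w` is a root of a monic polynomial over `F` whose degree is the
degree of `w` over `L`. -/
theorem exists_monic_of_trace (τ : D →ₗ[L] L) (h1 : τ 1 = 1) (F : Subfield L) {w : D}
    (hw : IsAlgebraic L w) (hτ : ∀ k : ℕ, τ (w ^ k) ∈ F) :
    ∃ p : F[X], p.Monic ∧ p.natDegree = (minpoly L w).natDegree ∧ aeval w p = 0 := by
  have hwi : IsIntegral L w := hw.isIntegral
  set r := (minpoly L w).natDegree with hr
  let M : Matrix (Fin r) (Fin r) L := Matrix.of fun i j => τ (w ^ ((i : ℕ) + (j : ℕ)))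
  have hM : M.det ≠ 0 := by
    intro hdet
    obtain ⟨v, hv, hMv⟩ := Matrix.exists_mulVec_eq_zero_iff.2 hdet
    let u : D := ∑ j, v j • w ^ (j : ℕ)
    have hu0 : u ≠ 0 := fun h => hv (eq_zero_of_sum_eq_zero v h)
    have hτu : ∀ i : Fin r, τ (w ^ (i : ℕ) * u) = 0 := by
      intro i
      have h2 := congrFun hMv i
      rw [Matrix.mulVec, dotProduct] at h2
      simp only [u, Finset.mul_sum, map_sum, mul_smul_comm, map_smul, smul_eq_mul, ← pow_add]
      rw [Pi.zero_apply] at h2
      rw [← h2]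
      apply Finset.sum_congr rfl
      intro j _
      rw [mul_comm]
      rfl
    have humem : u ∈ Algebra.adjoin L {w} := by
      apply sum_mem
      intro j _
      exact Subalgebra.smul_mem _ (pow_mem (Algebra.self_mem_adjoin_singleton L w) _) _
    have hui : IsIntegral L u :=
      IsIntegral.of_mem_of_fg _ hwi.fg_adjoin_singleton u humem
    have huinv : u⁻¹ ∈ Algebra.adjoin L {w} :=
      (Algebra.adjoin_le (Set.singleton_subset_iff.2 humem)) hui.inv_mem_adjoin
    obtain ⟨c, hc⟩ := exists_poly_of_mem hwi huinv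
    have h3 : τ 1 = 0 := by
      rw [← inv_mul_cancel₀ hu0, hc, Finset.sum_mul, map_sum]
      apply Finset.sum_eq_zero
      intro i _
      rw [smul_mul_assoc, map_smul, hτu, smul_zero]
    rw [h1] at h3
    exact one_ne_zero h3
  -- the relation
  have hrel : ∑ j : Fin r, (minpoly L w).coeff j • w ^ (j : ℕ) + w ^ r = 0 := by
    have h2 := minpoly.aeval L w
    rw [aeval_eq_sum_range, Finset.sum_range_succ, Finset.sum_range] at h2
    rw [← hr] at h2
    have h3 : (minpoly L w).coeff r = 1 := (minpoly.monic hwi).coeff_natDegree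
    rwa [h3, one_smul] at h2
  let M' : Matrix (Fin r) (Fin r) F := Matrix.of fun i j => ⟨τ (w ^ ((i : ℕ) + (j : ℕ))), hτ _⟩
  let b' : Fin r → F := fun i => -⟨τ (w ^ ((i : ℕ) + r)), hτ _⟩
  have hMM' : M'.map (algebraMap F L) = M := rfl
  have hdet' : M'.det ≠ 0 := by
    intro h
    apply hM
    rw [← hMM']
    have h2 := RingHom.map_det (algebraMap F L) M'
    rw [h, map_zero] at h2
    exact h2.symm
  have hunit : IsUnit M'.det := isUnit_iff_ne_zero.2 hdet'
  let c' : Fin r → F := M'⁻¹.mulVec b'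
  have hc' : M'.mulVec c' = b' := by
    simp only [c', Matrix.mulVec_mulVec]
    rw [Matrix.mul_nonsing_inv _ hunit, Matrix.one_mulVec]
  have hcoef : ∀ j : Fin r, (minpoly L w).coeff j = (c' j : L) := by
    have h4 : M.mulVec (fun j : Fin r => (minpoly L w).coeff j - (c' j : L)) = 0 := by
      funext i
      have h5 := congrFun hc' i
      have h6 : ∑ j : Fin r, (τ (w ^ ((i : ℕ) + (j : ℕ)))) * (c' j : L) =
          -τ (w ^ ((i : ℕ) + r)) := by
        have h7 := congrArg (algebraMap F L) h5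
        rw [Matrix.mulVec, dotProduct, map_sum] at h7
        exact h7
      have h8 : ∑ j : Fin r, τ (w ^ ((i : ℕ) + (j : ℕ))) * (minpoly L w).coeff j =
          -τ (w ^ ((i : ℕ) + r)) := by
        have h9 := congrArg (fun z => τ (w ^ (i : ℕ) * z)) hrel
        simp only [mul_add, Finset.mul_sum, map_add, map_sum, mul_smul_comm, map_smul,
          smul_eq_mul, ← pow_add, mul_zero, map_zero] at h9
        rw [eq_neg_iff_add_eq_zero, ← h9]
        congr 1
        apply Finset.sum_congr rfl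
        intro j _
        rw [mul_comm]
      rw [Pi.zero_apply]
      change ∑ j : Fin r, M i j * ((minpoly L w).coeff j - (c' j : L)) = 0
      have h10 : ∑ j : Fin r, M i j * ((minpoly L w).coeff j - (c' j : L)) =
          ∑ j : Fin r, τ (w ^ ((i : ℕ) + (j : ℕ))) * (minpoly L w).coeff j -
            ∑ j : Fin r, (τ (w ^ ((i : ℕ) + (j : ℕ)))) * (c' j : L) := by
        rw [← Finset.sum_sub_distrib]
        apply Finset.sum_congr rfl
        intro j _
        rw [mul_sub]
        rfl
      rw [h10, h8, h6, sub_self]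
    have h5 := Matrix.eq_zero_of_mulVec_eq_zero hM h4
    intro j
    exact sub_eq_zero.1 (congrFun h5 j)
  let p : F[X] := X ^ r + ∑ j : Fin r, C (c' j) * X ^ (j : ℕ)
  have hp : (∑ j : Fin r, C (c' j) * X ^ (j : ℕ) : F[X]).degree < r := by
    rw [← mem_degreeLT]
    apply sum_mem
    intro i _
    rw [mem_degreeLT]
    refine (degree_C_mul_X_pow_le _ _).trans_lt ?_
    exact_mod_cast i.2
  refine ⟨p, monic_X_pow_add hp, ?_, ?_⟩
  · have h12 : p.degree = (r : WithBot ℕ) := by
      simp only [p]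
      rw [degree_add_eq_left_of_degree_lt (by rw [degree_X_pow]; exact hp), degree_X_pow]
    exact natDegree_eq_of_degree_eq_some h12
  simp only [p, map_add, map_pow, aeval_X, map_sum, map_mul, aeval_C]
  rw [add_comm, ← hrel]
  congr 1
  apply Finset.sum_congr rfl
  intro j _
  rw [hcoef j, ← Algebra.smul_def]
  rfl

end hankel

end P199K
end

section

open Finset

namespace P199K

open Vale.Agent.P199.H P199H

section core

variable {𝕜 : Type} [Field 𝕜] {L D : Type} [Field L] [DivisionRing D] [Algebra L D]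
  (c : 𝕜 →+* L) (τ : D →ₗ[L] L) (x y : D)

/-- the values of trace polynomials -/
abbrev val : Subring D := TExp.values ((algebraMap L D).comp c) (trD τ) x y

/-- the scalars which are values of trace polynomials -/
noncomputable def R0 : Subring L := (val c τ x y).comap (algebraMap L D)

/-- the field generated by the traces and the constants -/
noncomputable def F0 : Subfield L := Subfield.closure (R0 c τ x y : Set L)

theorem mem_F0 {a : L} : a ∈ F0 c τ x y ↔ ∃ b ∈ R0 c τ x y, ∃ d ∈ R0 c τ x y, b / d = a := by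
  unfold F0
  rw [Subfield.mem_closure_iff, Subring.closure_eq]

theorem R0_le_F0 {a : L} (ha : a ∈ R0 c τ x y) : a ∈ F0 c τ x y :=
  (mem_F0 c τ x y).2 ⟨a, ha, 1, one_mem _, by simp⟩

theorem const_mem_F0 (q : 𝕜) : c q ∈ F0 c τ x y :=
  R0_le_F0 c τ x y (TExp.const_mem_values ((algebraMap L D).comp c) (trD τ) x y q)

theorem smul_mem_values {a : L} (ha : a ∈ R0 c τ x y) {v : D}
    (hv : v ∈ val c τ x y) : a • v ∈ val c τ x y := by
  rw [Algebra.smul_def]
  exact mul_mem ha hv

/-- the algebra over `F0` generated by `x` and `y` -/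
noncomputable def A0 : Subalgebra (F0 c τ x y) D := Algebra.adjoin (F0 c τ x y) {x, y}

theorem exists_smul_mem {w : D} (hw : w ∈ A0 c τ x y) :
    ∃ s ∈ R0 c τ x y, s ≠ 0 ∧ s • w ∈ val c τ x y := by
  unfold A0 at hw
  induction hw using Algebra.adjoin_induction with
  | mem w hw =>
    refine ⟨1, one_mem _, one_ne_zero, ?_⟩
    rw [one_smul]
    rcases hw with rfl | hw
    · exact TExp.x_mem_values _ _ _ _
    · rw [Set.mem_singleton_iff] at hw
      subst hw
      exact TExp.y_mem_values _ _ _ _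
  | algebraMap r =>
    obtain ⟨a, ha, b, hb, hab⟩ := (mem_F0 c τ x y).1 r.2
    by_cases h0 : b = 0
    · refine ⟨1, one_mem _, one_ne_zero, ?_⟩
      rw [h0, div_zero] at hab
      have : r = 0 := Subtype.ext hab.symm
      rw [this, map_zero, smul_zero]
      exact zero_mem _
    · refine ⟨b, hb, h0, ?_⟩
      have h1 : b • algebraMap (F0 c τ x y) D r = algebraMap L D a := by
        have h2 : algebraMap (F0 c τ x y) D r = algebraMap L D (r : L) := rfl
        rw [h2, Algebra.smul_def, ← map_mul, ← hab, mul_div_cancel₀ _ h0]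
      rw [h1]
      exact ha
  | add a b _ _ ha hb =>
    obtain ⟨s, hs, hs0, hs1⟩ := ha
    obtain ⟨t, ht, ht0, ht1⟩ := hb
    refine ⟨s * t, mul_mem hs ht, mul_ne_zero hs0 ht0, ?_⟩
    rw [smul_add]
    refine add_mem ?_ ?_
    · rw [mul_comm, mul_smul]
      exact smul_mem_values c τ x y ht hs1
    · rw [mul_smul]
      exact smul_mem_values c τ x y hs ht1
  | mul a b _ _ ha hb =>
    obtain ⟨s, hs, hs0, hs1⟩ := ha
    obtain ⟨t, ht, ht0, ht1⟩ := hb
    refine ⟨s * t, mul_mem hs ht, mul_ne_zero hs0 ht0, ?_⟩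
    have : (s * t) • (a * b) = (s • a) * (t • b) := by
      rw [smul_mul_smul_comm]
    rw [this]
    exact mul_mem hs1 ht1

theorem tau_mem {w : D} (hw : w ∈ A0 c τ x y) : τ w ∈ F0 c τ x y := by
  obtain ⟨s, hs, hs0, hs1⟩ := exists_smul_mem c τ x y hw
  have h1 : s * τ w ∈ R0 c τ x y := by
    have := TExp.tr_mem_values ((algebraMap L D).comp c) (trD τ) x y hs1
    unfold trD at this
    rw [map_smul, smul_eq_mul] at this
    exact this
  have h2 := (F0 c τ x y).div_mem (R0_le_F0 c τ x y h1) (R0_le_F0 c τ x y hs)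
  rwa [mul_div_cancel_left₀ _ hs0] at h2

variable {c τ x y}

theorem isAlgebraicL_A0
    (halg : ∀ Φ : TExp 𝕜, IsAlgebraic L (TExp.eval ((algebraMap L D).comp c) (trD τ) x y Φ))
    {w : D} (hw : w ∈ A0 c τ x y) : IsAlgebraic L w := by
  obtain ⟨s, hs, hs0, Φ, hΦ⟩ := exists_smul_mem c τ x y hw
  have h1 : w = s⁻¹ • TExp.eval ((algebraMap L D).comp c) (trD τ) x y Φ := by
    rw [hΦ, smul_smul, inv_mul_cancel₀ hs0, one_smul]
  rw [h1]
  exact ((halg Φ).isIntegral.smul s⁻¹).isAlgebraic

theorem exists_monic_A0 (hτ : τ 1 = 1)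
    (halg : ∀ Φ : TExp 𝕜, IsAlgebraic L (TExp.eval ((algebraMap L D).comp c) (trD τ) x y Φ))
    {w : D} (hw : w ∈ A0 c τ x y) :
    ∃ p : Polynomial (F0 c τ x y), p.Monic ∧ p.natDegree = (minpoly L w).natDegree ∧
      Polynomial.aeval w p = 0 :=
  exists_monic_of_trace τ hτ (F0 c τ x y) (isAlgebraicL_A0 halg hw)
    fun k => tau_mem c τ x y (pow_mem hw k)

theorem isAlgebraic_A0 (hτ : τ 1 = 1)
    (halg : ∀ Φ : TExp 𝕜, IsAlgebraic L (TExp.eval ((algebraMap L D).comp c) (trD τ) x y Φ))
    {w : D} (hw : w ∈ A0 c τ x y) : IsAlgebraic (F0 c τ x y) w := by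
  obtain ⟨p, h1, -, h2⟩ := exists_monic_A0 hτ halg hw
  exact ⟨p, h1.ne_zero, h2⟩

theorem natDegree_A0 (hτ : τ 1 = 1)
    (halg : ∀ Φ : TExp 𝕜, IsAlgebraic L (TExp.eval ((algebraMap L D).comp c) (trD τ) x y Φ))
    {w : D} (hw : w ∈ A0 c τ x y) :
    (minpoly (F0 c τ x y) w).natDegree = (minpoly L w).natDegree := by
  obtain ⟨p, h1, h2, h3⟩ := exists_monic_A0 hτ halg hw
  have hint : IsIntegral (F0 c τ x y) w := (isAlgebraic_A0 hτ halg hw).isIntegral
  apply le_antisymm
  · rw [← h2]
    exact Polynomial.natDegree_le_natDegree (minpoly.min (F0 c τ x y) w h1 h3)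
  · have h4 : (minpoly L w).degree ≤
        ((minpoly (F0 c τ x y) w).map (algebraMap (F0 c τ x y) L)).degree :=
      minpoly.min L w ((minpoly.monic hint).map _) (by
        rw [Polynomial.aeval_map_algebraMap]
        exact minpoly.aeval _ _)
    have h5 := Polynomial.natDegree_le_natDegree h4
    rwa [Polynomial.natDegree_map] at h5

theorem countable_values [Countable 𝕜] : Countable (val c τ x y) := by
  have h : ((val c τ x y : Subring D) : Set D) =
      Set.range (TExp.eval ((algebraMap L D).comp c) (trD τ) x y) := rfl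
  have h1 : (Set.range (TExp.eval ((algebraMap L D).comp c) (trD τ) x y)).Countable :=
    Set.countable_range _
  rw [← h] at h1
  exact h1.to_subtype

theorem countable_F0 [Countable 𝕜] : Countable (F0 c τ x y) := by
  have h1 := countable_values (c := c) (τ := τ) (x := x) (y := y)
  have h2 : Countable (R0 c τ x y) := by
    let f : R0 c τ x y → val c τ x y := fun a => ⟨algebraMap L D a, a.2⟩
    have hf : Function.Injective f := by
      intro a b hab
      exact Subtype.ext ((algebraMap L D).injective (congrArg Subtype.val hab))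
    exact hf.countable
  let g : R0 c τ x y × R0 c τ x y → F0 c τ x y := fun ab =>
    ⟨(ab.1 : L) / (ab.2 : L),
      (F0 c τ x y).div_mem (R0_le_F0 c τ x y ab.1.2) (R0_le_F0 c τ x y ab.2.2)⟩
  have hg : Function.Surjective g := by
    intro e
    obtain ⟨a, ha, b, hb, hab⟩ := (mem_F0 c τ x y).1 e.2
    exact ⟨(⟨a, ha⟩, ⟨b, hb⟩), Subtype.ext hab⟩
  exact hg.countable

/-- the core of the limit argument -/
theorem core [Countable 𝕜] (hτ : τ 1 = 1)
    (halg : ∀ Φ : TExp 𝕜, IsAlgebraic L (TExp.eval ((algebraMap L D).comp c) (trD τ) x y Φ))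
    (hinf : ¬ Module.Finite L (Algebra.adjoin L ({x, y} : Set D)))
    (hdeg : ∀ w : D, IsAlgebraic L w → ∃ m : ℕ, (minpoly L w).natDegree = 2 ^ m) :
    ∃ (F A : Type) (_ : Field F) (_ : Countable F) (_ : Algebra 𝕜 F) (_ : DivisionRing A)
      (_ : Algebra F A) (x y : A),
      (∀ a : A, IsAlgebraic F a) ∧ Algebra.adjoin F ({x, y} : Set A) = ⊤ ∧
        ¬ Module.Finite F A ∧ ∀ a : A, ∃ m : ℕ, (minpoly F a).natDegree = 2 ^ m := by
  classical
  have hal : ∀ a : A0 c τ x y, IsAlgebraic (F0 c τ x y) a := fun a =>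
    (isAlgebraic_algHom_iff (A0 c τ x y).val Subtype.val_injective).1
      (isAlgebraic_A0 hτ halg a.2)
  have hunit : ∀ a : A0 c τ x y, IsUnit a ∨ a = 0 := by
    intro a
    by_cases h0 : a = 0
    · exact Or.inr h0
    · left
      have hne : (a : D) ≠ 0 := fun h => h0 (Subtype.ext h)
      have hint : IsIntegral (F0 c τ x y) (a : D) := (isAlgebraic_A0 hτ halg a.2).isIntegral
      have hinv : (a : D)⁻¹ ∈ A0 c τ x y :=
        (Algebra.adjoin_le (Set.singleton_subset_iff.2 a.2)) hint.inv_mem_adjoin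
      exact ⟨⟨a, ⟨_, hinv⟩, Subtype.ext (mul_inv_cancel₀ hne),
        Subtype.ext (inv_mul_cancel₀ hne)⟩, rfl⟩
  let inst : DivisionRing (A0 c τ x y) := DivisionRing.ofIsUnitOrEqZero hunit
  have hx : x ∈ A0 c τ x y := Algebra.subset_adjoin (by simp)
  have hy : y ∈ A0 c τ x y := Algebra.subset_adjoin (by simp)
  refine ⟨F0 c τ x y, A0 c τ x y, inferInstance, countable_F0,
    (c.codRestrict (F0 c τ x y) (const_mem_F0 c τ x y)).toAlgebra, inst, inferInstance,
    ⟨x, hx⟩, ⟨y, hy⟩, hal, ?_, ?_, ?_⟩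
  · have h1 : (({⟨x, hx⟩, ⟨y, hy⟩} : Set (A0 c τ x y))) =
        ((↑) : A0 c τ x y → D) ⁻¹' {x, y} := by
      ext a
      simp [Subtype.ext_iff]
    rw [h1]
    exact Algebra.adjoin_adjoin_coe_preimage
  · intro hfin
    apply hinf
    have hfg : (Subalgebra.toSubmodule (A0 c τ x y)).FG := Module.Finite.iff_fg.1 hfin
    obtain ⟨G, hG⟩ := hfg
    have h1 : Subalgebra.toSubmodule (Algebra.adjoin L ({x, y} : Set D)) ≤
        Submodule.span L (G : Set D) := by
      rw [Algebra.adjoin_eq_span, Submodule.span_le]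
      intro w hw
      have hw' : w ∈ A0 c τ x y := by
        have h2 : (Submonoid.closure ({x, y} : Set D)) ≤ (A0 c τ x y).toSubmonoid :=
          Submonoid.closure_le.2 Algebra.subset_adjoin
        exact h2 hw
      have h3 : w ∈ Submodule.span (F0 c τ x y) (G : Set D) := by
        rw [hG]
        exact hw'
      exact Submodule.span_le_restrictScalars (F0 c τ x y) L _ h3
    have h2 : Module.Finite L (Submodule.span L (G : Set D)) :=
      FiniteDimensional.span_finset L G
    exact Submodule.finiteDimensional_of_le h1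
  · intro a
    obtain ⟨m, hm⟩ := hdeg (a : D) (isAlgebraicL_A0 halg a.2)
    refine ⟨m, ?_⟩
    rw [← hm, ← natDegree_A0 hτ halg a.2]
    have h1 := minpoly.algHom_eq (A0 c τ x y).val Subtype.val_injective a
    exact congrArg Polynomial.natDegree h1.symm

end core

section ultra

variable {𝕜 : Type} [Field 𝕜] {L D : ℕ → Type} [∀ n, Field (L n)] [∀ n, DivisionRing (D n)]
  [∀ n, Algebra (L n) (D n)]
variable (c : ∀ n, 𝕜 →+* L n) (τ : ∀ n, D n →ₗ[L n] L n)

/-- the constants of the ultraproduct -/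
noncomputable def cUP : 𝕜 →+* UP L := (pr L).comp (Pi.ringHom c)

theorem eval_pr (x y : ∀ n, D n) (Φ : TExp 𝕜) :
    TExp.eval ((algebraMap (UP L) (UP D)).comp (cUP c)) (trD (tauUP τ)) (pr D x) (pr D y) Φ =
      pr D (fun n => TExp.eval ((algebraMap (L n) (D n)).comp (c n)) (trD (τ n)) (x n) (y n) Φ) := by
  induction Φ with
  | x => rfl
  | y => rfl
  | const q => exact algebraMap_pr L D (fun n => c n q)
  | add a b iha ihb =>
    rw [TExp.eval_add, iha, ihb, ← map_add]
    rfl
  | mul a b iha ihb =>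
    rw [TExp.eval_mul, iha, ihb, ← map_mul]
    rfl
  | tr a iha =>
    rw [TExp.eval_tr, iha]
    unfold trD
    rw [tauUP_pr, algebraMap_pr]
    rfl

/-- relations of degree at most `d` in the ultraproduct -/
theorem polyRel_pr (w : ∀ n, D n) (d : ℕ) :
    PolyRel (UP L) d (pr D w) ↔ ∀ᶠ n in UU, PolyRel (L n) d (w n) := by
  classical
  simp only [polyRel_iff]
  constructor
  · rintro ⟨e, he0, he⟩
    choose e' he' using fun i => pr_surjective L (e i)
    have h1 : ∑ i : Fin (d + 1), e i • pr D w ^ (i : ℕ) =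
        pr D (fun n => ∑ i : Fin (d + 1), e' i n • w n ^ (i : ℕ)) := by
      rw [← sum_pr]
      refine Finset.sum_congr rfl fun i _ => ?_
      rw [he' i]
      congr 1
    rw [h1, pr_eq_zero] at he
    obtain ⟨i, hi⟩ := Function.ne_iff.1 he0
    have h2 : ∀ᶠ n in UU, ¬ e' i n = 0 := by
      rw [Ultrafilter.eventually_not]
      intro h3
      apply hi
      rw [← he' i]
      exact pr_eq_zero.2 h3
    refine (he.and h2).mono fun n hn => ⟨fun i => e' i n, ?_, hn.1⟩
    intro h3
    exact hn.2 (congrFun h3 i)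
  · intro h
    have h' : ∀ n, ∃ e : Fin (d + 1) → L n, (∃ e : Fin (d + 1) → L n, e ≠ 0 ∧
        ∑ i, e i • w n ^ (i : ℕ) = 0) → e ≠ 0 ∧ ∑ i, e i • w n ^ (i : ℕ) = 0 := by
      intro n
      by_cases hn : ∃ e : Fin (d + 1) → L n, e ≠ 0 ∧ ∑ i, e i • w n ^ (i : ℕ) = 0
      · obtain ⟨e, he⟩ := hn
        exact ⟨e, fun _ => he⟩
      · exact ⟨0, fun h1 => absurd h1 hn⟩
    choose e he using h'
    refine ⟨fun i => pr L (fun n => e n i), ?_, ?_⟩
    · intro h0
      have h1 : ∀ᶠ n in UU, ∀ i, e n i = 0 := by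
        rw [Filter.eventually_all]
        intro i
        exact pr_eq_zero.1 (congrFun h0 i)
      obtain ⟨n, hn, hn'⟩ := (h1.and h).exists
      exact (he n hn').1 (funext hn)
    · have h1 : ∑ i : Fin (d + 1), (pr L (fun n => e n i)) • pr D w ^ (i : ℕ) =
          pr D (fun n => ∑ i : Fin (d + 1), e n i • w n ^ (i : ℕ)) := by
        rw [← sum_pr]
        refine Finset.sum_congr rfl fun i _ => ?_
        congr 1
      rw [h1, pr_eq_zero]
      exact h.mono fun n hn => (he n hn).2

theorem polyRel_iff_natDegree {L D : Type*} [Field L] [DivisionRing D] [Algebra L D] {w : D}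
    (hw : IsAlgebraic L w) (d : ℕ) : PolyRel L d w ↔ (minpoly L w).natDegree ≤ d := by
  constructor
  · rintro ⟨p, hp, hd, h⟩
    exact (Polynomial.natDegree_le_natDegree (minpoly.degree_le_of_ne_zero L w hp h)).trans hd
  · intro h
    exact ⟨minpoly L w, minpoly.ne_zero hw.isIntegral, h, minpoly.aeval L w⟩

theorem natDegree_pr
    (hdeg : ∀ n, ∀ w : D n, IsAlgebraic (L n) w ∧ ∃ m : ℕ, (minpoly (L n) w).natDegree = 2 ^ m)
    (w : UP D) (hw : IsAlgebraic (UP L) w) : ∃ m : ℕ, (minpoly (UP L) w).natDegree = 2 ^ m := by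
  obtain ⟨w, rfl⟩ := pr_surjective D w
  have hpos : 0 < (minpoly (UP L) (pr D w)).natDegree := minpoly.natDegree_pos hw.isIntegral
  have h1 : ∀ᶠ n in UU, PolyRel (L n) (minpoly (UP L) (pr D w)).natDegree (w n) :=
    (polyRel_pr w _).1 ((polyRel_iff_natDegree hw _).2 le_rfl)
  have h2 : ∀ᶠ n in UU, ¬ PolyRel (L n) ((minpoly (UP L) (pr D w)).natDegree - 1) (w n) := by
    rw [Ultrafilter.eventually_not, ← polyRel_pr, polyRel_iff_natDegree hw]
    omega
  obtain ⟨n, hn1, hn2⟩ := (h1.and h2).exists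
  obtain ⟨h3, m, hm⟩ := hdeg n (w n)
  rw [polyRel_iff_natDegree h3] at hn1 hn2
  exact ⟨m, by omega⟩

end ultra

/-- **L10.** From finite levels to a counterexample over a central subfield containing a given
countable field `𝕜`. -/
theorem kurosh_of_levels {𝕜 : Type} [Field 𝕜] [Countable 𝕜] (d : ℕ → ℕ)
    (H : ∀ (Φ : ℕ → TExp 𝕜) (n : ℕ), ∃ (L D : Type) (_ : Field L) (_ : DivisionRing D)
      (_ : Algebra L D) (c : 𝕜 →+* L) (τ : D →ₗ[L] L) (x y : D), τ 1 = 1 ∧
      (∀ j ≤ n, ∃ e : Fin (d j + 1) → L, e ≠ 0 ∧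
        ∑ i, e i • (TExp.eval ((algebraMap L D).comp c) (trD τ) x y (Φ j)) ^ (i : ℕ) = 0) ∧
      n ≤ Module.finrank L (Algebra.adjoin L ({x, y} : Set D)) ∧
      ∀ w : D, IsAlgebraic L w ∧ ∃ m : ℕ, (minpoly L w).natDegree = 2 ^ m) :
    ∃ (F A : Type) (_ : Field F) (_ : Countable F) (_ : Algebra 𝕜 F) (_ : DivisionRing A)
      (_ : Algebra F A) (x y : A),
      (∀ a : A, IsAlgebraic F a) ∧ Algebra.adjoin F ({x, y} : Set A) = ⊤ ∧
        ¬ Module.Finite F A ∧ ∀ a : A, ∃ m : ℕ, (minpoly F a).natDegree = 2 ^ m := by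
  obtain ⟨Φ, hΦ⟩ := exists_surjective_nat (TExp 𝕜)
  choose L D iL iD iA c τ x y hτ hj hn hdeg using H Φ
  refine core (c := cUP c) (L := UP L) (D := UP D) (τ := tauUP τ) (x := pr D x) (y := pr D y)
    ?_ ?_ ?_ ?_
  · rw [← map_one (pr D), tauUP_pr, ← map_one (pr L)]
    congr 1
    funext n
    exact hτ n
  · intro Ψ
    obtain ⟨j, rfl⟩ := hΦ Ψ
    rw [eval_pr]
    exact isAlgebraic_pr _ (d j) j fun n hn => hj n j hn
  · exact not_finite_pr x y hn
  · exact natDegree_pr hdeg

end P199K
end
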