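import Vale.Agent.P199.H128.K5
import Mathlib.RingTheory.Algebraic.Cardinality
import Mathlib.FieldTheory.IsAlgClosed.AlgebraicClosure

/-!
# P199 over an arbitrary countable field of characteristic different from two, part 6

The assembly.
-/

set_option linter.all false

section

namespace P199K

open MvPolynomial Module P199H
open Vale.Agent.P199.H (trD)

/-! ### Dimensions of subalgebras and degrees of elements -/

/-- a finite-dimensional domain is a free module over its subalgebras -/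
theorem finrank_dvd_of_subalgebra {L D : Type} [Field L] [Ring D] [IsDomain D] [Algebra L D]
    [FiniteDimensional L D] (D1 : Subalgebra L D) : finrank L D1 ∣ finrank L D := by
  letI : DivisionRing D1 := divisionRingOfFiniteDimensional L D1
  haveI : Module.Free D1 D := Module.Free.of_divisionRing D1 D
  exact Module.finrank_dvd_finrank_right L D1 D

theorem finrank_adjoin_eq {L D : Type} [Field L] [DivisionRing D] [Algebra L D] {w : D}
    (hw : IsIntegral L w) : finrank L (Algebra.adjoin L {w}) = (minpoly L w).natDegree := by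
  let v : Fin (minpoly L w).natDegree → Algebra.adjoin L {w} := fun i =>
    ⟨w ^ (i : ℕ), pow_mem (Algebra.self_mem_adjoin_singleton L w) _⟩
  have hli : LinearIndependent L v := by
    rw [Fintype.linearIndependent_iff]
    intro g hg i
    have h1 := congrArg Subtype.val hg
    rw [AddSubmonoidClass.coe_finsetSum] at h1
    have h2 := Vale.Agent.P199.H.eq_zero_of_sum_eq_zero g h1
    rw [h2]
    rfl
  have hsp : ⊤ ≤ Submodule.span L (Set.range v) := by
    rintro ⟨a, ha⟩ -
    obtain ⟨c, hc⟩ := Vale.Agent.P199.H.exists_poly_of_mem hw ha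
    have h1 : (⟨a, ha⟩ : Algebra.adjoin L {w}) = ∑ i, c i • v i := by
      apply Subtype.ext
      rw [AddSubmonoidClass.coe_finsetSum]
      exact hc
    rw [h1]
    exact Submodule.sum_mem _ fun i _ => Submodule.smul_mem _ _ (Submodule.subset_span ⟨i, rfl⟩)
  rw [Module.finrank_eq_card_basis (Basis.mk hli hsp), Fintype.card_fin]

theorem natDegree_two_pow {L D : Type} [Field L] [DivisionRing D] [Algebra L D]
    [FiniteDimensional L D] {k : ℕ} (hk : finrank L D = 2 ^ k) (w : D) :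
    IsAlgebraic L w ∧ ∃ m : ℕ, (minpoly L w).natDegree = 2 ^ m := by
  have hw : IsIntegral L w := IsIntegral.of_finite L w
  refine ⟨hw.isAlgebraic, ?_⟩
  have h1 := finrank_dvd_of_subalgebra (L := L) (D := D) (Algebra.adjoin L {w})
  rw [finrank_adjoin_eq hw, hk, Nat.dvd_prime_pow Nat.prime_two] at h1
  obtain ⟨m, -, hm⟩ := h1
  exact ⟨m, hm⟩

section L9Tw

variable {𝕜 : Type} [Field 𝕜] {K : ℕ} {L : Type} [Field L] [Algebra 𝕜 L] {s : Ix K → L}

theorem der_coc (δ : Derivation 𝕜 L L) (hδ : ∀ i, δ (s i) = 0) (g h : Gam K) :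
    δ (coc s g h) = 0 := by
  refine der_adjoin δ (Set.range s) (by rintro _ ⟨i, rfl⟩; exact hδ i) _ ?_
  unfold coc sgn0 sqq
  refine mul_mem (prod_mem fun i _ => ?_) (prod_mem fun i _ => ?_)
  · unfold sgp
    split_ifs
    · exact neg_mem (one_mem _)
    · exact one_mem _
  · unfold sqp
    split_ifs
    · exact Algebra.subset_adjoin ⟨i, rfl⟩
    · exact one_mem _

theorem ext_basis_mul (δ : Derivation 𝕜 L L) (hδ : ∀ i, δ (s i) = 0) (g h : Gam K) :
    ext (Tw.basis : Module.Basis (Gam K) L (Tw K L s)) δ (Tw.basis g * Tw.basis h) = 0 := by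
  have h1 : ext (Tw.basis : Module.Basis (Gam K) L (Tw K L s)) δ (Tw.X (g + h)) = 0 := by
    rw [ext_eq_zero_iff]
    intro a
    rw [Tw.basis_repr, Tw.X_apply]
    split_ifs
    · exact δ.map_one_eq_zero
    · exact map_zero δ
  rw [Tw.basis_apply, Tw.basis_apply, Tw.X_mul_X, ext_smul, der_coc δ hδ, zero_smul, zero_add, h1,
    smul_zero]

end L9Tw

/-- The bound on the dimension of the algebra generated by `x` and `y`. -/
theorem dim_bound {𝕜 : Type} [Field 𝕜] [PerfectField 𝕜] (h𝕜 : (2 : 𝕜) ≠ 0) {K : ℕ}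
    (P : Ideal (MvPolynomial (J0 K) 𝕜)) [hP : P.IsPrime]
    (hs : ∀ i, s0 i ∉ P) (L : Type) [Field L] [Algebra 𝕜 L]
    [Algebra (MvPolynomial (J0 K) 𝕜 ⧸ P) L] [IsFractionRing (MvPolynomial (J0 K) 𝕜 ⧸ P) L]
    [IsScalarTower 𝕜 (MvPolynomial (J0 K) 𝕜 ⧸ P) L]
    (φ : MvPolynomial (J0 K) 𝕜 →+* L)
    (hφ : ∀ p, φ p = algebraMap (MvPolynomial (J0 K) 𝕜 ⧸ P) L (Ideal.Quotient.mk P p))
    [NoZeroDivisors (Tw K L (fun i => φ (s0 i)))] :
    td P ≤ (K + K) + 2 ^ (2 * K) + 2 * (finrank L (Algebra.adjoin L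
      ({(φ sigma0)⁻¹ • Tw.map φ (fun _ => rfl) xgen, (φ sigma0)⁻¹ • Tw.map φ (fun _ => rfl) ygen} :
        Set (Tw K L (fun i => φ (s0 i)))))) ^ 2 := by
  classical
  haveI : IsDomain (Tw K L (fun i => φ (s0 i))) := NoZeroDivisors.to_isDomain _
  obtain ⟨b, δb, hb⟩ := exists_dual P L
  have hinj : Function.Injective (algebraMap (MvPolynomial (J0 K) 𝕜 ⧸ P) L) :=
    IsFractionRing.injective _ _
  have hφ0 : ∀ p, φ p = 0 ↔ p ∈ P := by
    intro p
    rw [hφ, map_eq_zero_iff _ hinj, Ideal.Quotient.eq_zero_iff_mem]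
  have hsig : φ sigma0 = ∏ i : Ix K, φ (s0 i) := by
    unfold sigma0
    rw [map_prod]
  have hsig0 : φ sigma0 ≠ 0 := by
    rw [hsig, Finset.prod_ne_zero_iff]
    intro i _ h
    exact hs i ((hφ0 _).1 h)
  have h2L : (2 : L) ≠ 0 := by
    intro h
    have h4 : algebraMap 𝕜 L 2 = 0 := by rw [map_ofNat]; exact h
    exact h𝕜 ((map_eq_zero_iff _ (algebraMap 𝕜 L).injective).1 h4)
  have h1 := trdeg_bound (L := L) (D := Tw K L (fun i => φ (s0 i))) (G := Gam K) Tw.basis
    (N := K + K) (fun i => φ (s0 (finSumFinEquiv.symm i)))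
    (by
      intro δ hδ g h
      exact ext_basis_mul δ (fun i => by
        have := hδ (finSumFinEquiv i)
        rwa [Equiv.symm_apply_apply] at this) g h)
    Tw.tau Tw.tau_mul_comm Tw.tau_one
    ((φ sigma0)⁻¹ • Tw.map φ (fun _ => rfl) xgen) ((φ sigma0)⁻¹ • Tw.map φ (fun _ => rfl) ygen)
    (by
      intro δ hδ hx hy
      have hδs : ∀ i, δ (φ (s0 i)) = 0 := fun i => by
        have := hδ (finSumFinEquiv i)
        rwa [Equiv.symm_apply_apply] at this
      have hδsig : δ (φ sigma0) = 0 := by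
        refine der_adjoin δ (Set.range fun i => φ (s0 i))
          (by rintro _ ⟨i, rfl⟩; exact hδs i) _ ?_
        rw [hsig]
        exact prod_mem fun i _ => Algebra.subset_adjoin ⟨i, rfl⟩
      have key : ∀ l : L, δ ((φ sigma0)⁻¹ * l) = 0 → δ l = 0 := by
        intro l hl
        have h2 : l = φ sigma0 * ((φ sigma0)⁻¹ * l) := by
          rw [← mul_assoc, mul_inv_cancel₀ hsig0, one_mul]
        rw [h2, Derivation.leibniz, hl, hδsig, smul_zero, smul_zero, add_zero]
      have hδφ : ∀ p, δ (φ p) = 0 := by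
        intro p
        induction p using MvPolynomial.induction_on with
        | C a =>
          have h3 : φ (C a) = algebraMap 𝕜 L a := by
            rw [hφ, IsScalarTower.algebraMap_apply 𝕜 (MvPolynomial (J0 K) 𝕜 ⧸ P) L]
            rfl
          rw [h3]
          exact δ.map_algebraMap a
        | add p q hp hq => rw [map_add, map_add, hp, hq, add_zero]
        | mul_X p j hp =>
          have hj : δ (φ (X j)) = 0 := by
            rcases j with (g | g) | i
            · apply key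
              have := hx g
              rw [Tw.basis_repr, Tw.smul_apply, Tw.map_apply] at this
              exact this
            · apply key
              have := hy g
              rw [Tw.basis_repr, Tw.smul_apply, Tw.map_apply] at this
              exact this
            · exact hδs i
          rw [map_mul, Derivation.leibniz, hp, hj, smul_zero, smul_zero, add_zero]
      refine der_eq_zero_of_frac δ (Set.range φ) (by rintro _ ⟨p, rfl⟩; exact hδφ p) ?_
      intro l
      obtain ⟨a, b, hb, rfl⟩ := IsFractionRing.div_surjective (A := MvPolynomial (J0 K) 𝕜 ⧸ P) l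
      obtain ⟨a, rfl⟩ := Ideal.Quotient.mk_surjective a
      obtain ⟨b, rfl⟩ := Ideal.Quotient.mk_surjective b
      refine ⟨_, Algebra.subset_adjoin ⟨a, rfl⟩, _, Algebra.subset_adjoin ⟨b, rfl⟩, ?_, ?_⟩
      · rw [hφ]
        exact (map_ne_zero_iff _ hinj).2 (nonZeroDivisors.ne_zero hb)
      · rw [hφ, hφ])
    (by
      have h3 := finrank_dvd_of_subalgebra (L := L) (D := Tw K L (fun i => φ (s0 i)))
        (Algebra.adjoin L
          ({(φ sigma0)⁻¹ • Tw.map φ (fun _ => rfl) xgen,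
            (φ sigma0)⁻¹ • Tw.map φ (fun _ => rfl) ygen} : Set (Tw K L (fun i => φ (s0 i)))))
      rw [Tw.finrank_eq, Nat.dvd_prime_pow Nat.prime_two] at h3
      obtain ⟨m, -, hm⟩ := h3
      rw [hm, Nat.cast_pow, Nat.cast_ofNat]
      exact pow_ne_zero m h2L)
    b δb hb
  rw [Tw.finrank_eq] at h1
  exact h1

/-- The input from L5 needed for the assembly. -/
theorem l5Stmt0 {𝕜 : Type} [Field 𝕜] (K : ℕ) (hK : 0 < K) (P : Ideal (MvPolynomial (J0 K) 𝕜))
    (hP : P.IsPrime) (hH : HomI w0 P)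
    (hLC : ¬ (2 : MvPolynomial (Ix K) ℤ) ∣ (polySys w0 (w0_ne_zero hK)).LC P) :
    NoZeroDivisors (Tw K (MvPolynomial (J0 K) 𝕜 ⧸ P) (fun i => Ideal.Quotient.mk P (s0 i))) :=
  L5 w0 (w0_ne_zero hK) (js := Sum.inr) Sum.inr_injective (fun i => rfl) hP hH hLC

/-- The levels. -/
theorem level {𝕜 : Type} [Field 𝕜] [PerfectField 𝕜] (h𝕜 : (2 : 𝕜) ≠ 0) (Φ : ℕ → TExp 𝕜) (n : ℕ) :
    ∃ (L D : Type) (_ : Field L) (_ : DivisionRing D)
      (_ : Algebra L D) (c : 𝕜 →+* L) (τ : D →ₗ[L] L) (x y : D), τ 1 = 1 ∧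
      (∀ j ≤ n, ∃ e : Fin (2 ^ (j + 3) + 1) → L, e ≠ 0 ∧
        ∑ i, e i • (TExp.eval ((algebraMap L D).comp c) (trD τ) x y (Φ j)) ^ (i : ℕ) = 0) ∧
      n ≤ Module.finrank L (Algebra.adjoin L ({x, y} : Set D)) ∧
      ∀ w : D, IsAlgebraic L w ∧ ∃ m : ℕ, (minpoly L w).natDegree = 2 ^ m := by
  obtain ⟨P, hP, hH, hLC, hc, hrel⟩ := L8_of_L5 h𝕜 l5Stmt Φ n (n + 3) (by omega) le_rfl
  have hs : ∀ i, s0 i ∉ P := fun i =>
    X_notMem_of_good w0 _ hP hH hLC (Sum.inr i) (by rw [w0_s]; exact two_dvd_dotTh_single i)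
  haveI := hP
  let L := FractionRing (MvPolynomial (J0 (n + 3)) 𝕜 ⧸ P)
  let φ : MvPolynomial (J0 (n + 3)) 𝕜 →+* L :=
    (algebraMap (MvPolynomial (J0 (n + 3)) 𝕜 ⧸ P) L).comp (Ideal.Quotient.mk P)
  haveI hNZ := l5Stmt0 (𝕜 := 𝕜) (n + 3) (by omega) P hP hH hLC
  haveI hNZ' : NoZeroDivisors (Tw (n + 3) L (fun i => φ (s0 i))) :=
    Tw.noZeroDivisors_frac (s := fun i => Ideal.Quotient.mk P (s0 i)) (fun _ => rfl)
  letI iD : DivisionRing (Tw (n + 3) L (fun i => φ (s0 i))) := Tw.divisionRing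
  have hdeg := natDegree_two_pow (L := L) (D := Tw (n + 3) L (fun i => φ (s0 i)))
    (k := 2 * (n + 3)) Tw.finrank_eq
  refine ⟨L, Tw (n + 3) L (fun i => φ (s0 i)), inferInstance, iD, inferInstance,
    φ.comp MvPolynomial.C, Tw.tau, (φ sigma0)⁻¹ • Tw.map φ (fun _ => rfl) xgen,
    (φ sigma0)⁻¹ • Tw.map φ (fun _ => rfl) ygen, Tw.tau_one, ?_, ?_, hdeg⟩
  · intro j hj
    exact (polyRel_iff _ _).1 (hrel L φ (fun p hp => by
      change algebraMap _ L (Ideal.Quotient.mk P p) = 0
      rw [Ideal.Quotient.eq_zero_iff_mem.2 hp, map_zero]) j hj)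
  · have h1 := dim_bound h𝕜 P hs L φ (fun _ => rfl)
    have h2 := polySys_c_add_td w0 (w0_ne_zero (K := n + 3) (by omega)) P
    rw [card_J0] at h2
    change n ≤ Module.finrank L (Algebra.adjoin L
      ({(φ sigma0)⁻¹ • Tw.map φ (fun _ => rfl) xgen, (φ sigma0)⁻¹ • Tw.map φ (fun _ => rfl) ygen} :
        Set (Tw (n + 3) L (fun i => φ (s0 i)))))
    revert h1
    generalize Module.finrank L (Algebra.adjoin L
      ({(φ sigma0)⁻¹ • Tw.map φ (fun _ => rfl) xgen, (φ sigma0)⁻¹ • Tw.map φ (fun _ => rfl) ygen} :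
        Set (Tw (n + 3) L (fun i => φ (s0 i))))) = G
    intro h1
    by_contra hG
    push Not at hG
    have h3 : 2 ^ (2 * (n + 3)) = 64 * (2 ^ n) ^ 2 := by
      rw [← pow_mul, mul_add, pow_add, mul_comm n 2]
      norm_num
      ring
    have h4 : G ^ 2 ≤ (2 ^ n) ^ 2 :=
      Nat.pow_le_pow_left (hG.le.trans (Nat.lt_two_pow_self).le) 2
    have h5 : 0 < (2 ^ n) ^ 2 := by positivity
    omega

/-- the main theorem over a perfect countable field of characteristic different from two -/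
theorem kurosh_perfect {𝕜 : Type} [Field 𝕜] [PerfectField 𝕜] [Countable 𝕜]
    (h𝕜 : (2 : 𝕜) ≠ 0) :
    ∃ (F A : Type) (_ : Field F) (_ : Countable F) (_ : Algebra 𝕜 F) (_ : DivisionRing A)
      (_ : Algebra F A) (x y : A),
      (∀ a : A, IsAlgebraic F a) ∧ Algebra.adjoin F ({x, y} : Set A) = ⊤ ∧
        ¬ Module.Finite F A ∧ ∀ a : A, ∃ m : ℕ, (minpoly F a).natDegree = 2 ^ m :=
  kurosh_of_levels (fun j => 2 ^ (j + 3)) fun Φ n => level h𝕜 Φ n

theorem countable_algebraicClosure (k : Type) [Field k] [Countable k] :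
    Countable (AlgebraicClosure k) := by
  have h := Algebra.IsAlgebraic.cardinalMk_le_max k (AlgebraicClosure k)
  rw [← Cardinal.mk_le_aleph0_iff]
  exact h.trans (max_le Cardinal.mk_le_aleph0 le_rfl)

/-- **Main theorem**: every countable field of characteristic different from two is contained in
a countable central subfield `F` of a division algebra which is algebraic over `F`, generated by
two elements and infinite-dimensional over `F`; the degrees over `F` are powers of two. -/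
theorem kurosh_every (k : Type) [Field k] [Countable k] (hk : (2 : k) ≠ 0) :
    ∃ (F A : Type) (_ : Field F) (_ : Countable F) (_ : Algebra k F) (_ : DivisionRing A)
      (_ : Algebra F A) (x y : A),
      (∀ a : A, IsAlgebraic F a) ∧ Algebra.adjoin F ({x, y} : Set A) = ⊤ ∧
        ¬ Module.Finite F A ∧ ∀ a : A, ∃ m : ℕ, (minpoly F a).natDegree = 2 ^ m := by
  haveI := countable_algebraicClosure k
  have h2 : (2 : AlgebraicClosure k) ≠ 0 := by
    intro h
    have h4 : algebraMap k (AlgebraicClosure k) 2 = 0 := by rw [map_ofNat]; exact h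
    exact hk ((map_eq_zero_iff _ (algebraMap k (AlgebraicClosure k)).injective).1 h4)
  obtain ⟨F, A, i1, i2, i3, i4, i5, x, y, h⟩ := kurosh_perfect h2
  exact ⟨F, A, i1, i2, ((algebraMap (AlgebraicClosure k) F).comp
    (algebraMap k (AlgebraicClosure k))).toAlgebra, i4, i5, x, y, h⟩

end P199K
end
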